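import Vale.Agent.P028.H564.Marks

/-!
# The sums over the marks of a word, everything cut at a position `x`

Only the gains of the steps before `x` are used, and only the payments of the phases which are
finished at `x`.
-/

namespace Vale.P028.TSW

open Finset Vale.P028.RK

variable {κ : ℝ} {Pay : ℕ → Prop} {Ch : Finset ℕ} {dv : ℕ → Prop} {μ : ℕ → ℝ} {c : ℝ} {n : ℕ}

open Classical in
/-- the payments of the phases which start at or after `i` and end before or at `x` -/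
noncomputable def Vc (κ : ℝ) (Pay : ℕ → Prop) (Ch : Finset ℕ) (n x i : ℕ) : ℝ :=
  ∏ s ∈ Ch.filter (fun s => i ≤ s ∧ nx Ch n s ≤ x), if Pay s then 1 - κ else 1

open Classical in
theorem Vt_le_Vc (hκ0 : 0 ≤ κ) (hκ1 : κ ≤ 1) (x i : ℕ) : Vt κ Pay Ch i ≤ Vc κ Pay Ch n x i := by
  unfold Vt Vc
  refine prod_le_prod_of_subset_of_le_one ?_ (fun s _ => (fac_bounds hκ0 hκ1 Pay s).1)
    fun s _ _ => (fac_bounds hκ0 hκ1 Pay s).2
  intro s hs
  obtain ⟨h1, h2, _⟩ := mem_filter.1 hs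
  exact mem_filter.2 ⟨h1, h2⟩

theorem Vc_bounds (hκ0 : 0 ≤ κ) (hκ1 : κ ≤ 1) (x i : ℕ) :
    0 ≤ Vc κ Pay Ch n x i ∧ Vc κ Pay Ch n x i ≤ 1 := by
  classical
  unfold Vc
  exact ⟨prod_nonneg fun s _ => (fac_bounds hκ0 hκ1 Pay s).1,
    prod_le_one (fun s _ => (fac_bounds hκ0 hκ1 Pay s).1) fun s _ => (fac_bounds hκ0 hκ1 Pay s).2⟩

theorem cs0_lt' {x : ℕ} (hx : 0 < x) : ∀ s ∈ cs0 Ch x, s < x := cs0_lt hx

theorem cs0_nx_cut {x : ℕ} (hx : 0 < x) (hxn : x ≤ n) : ∀ s ∈ cs0 Ch x,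
    s < min (nx Ch n s) x ∧ (min (nx Ch n s) x ∈ cs0 Ch x ∨ min (nx Ch n s) x = x) ∧
      ∀ t ∈ cs0 Ch x, s < t → min (nx Ch n s) x ≤ t := by
  intro s hs
  have hsx := cs0_lt (Ch := Ch) hx s hs
  have hsn : s < n := lt_of_lt_of_le hsx hxn
  refine ⟨lt_min (lt_nx hsn) hsx, ?_, ?_⟩
  · rcases le_or_gt x (nx Ch n s) with h | h
    · exact Or.inr (min_eq_right h)
    · rw [min_eq_left h.le]
      rcases nx_mem_or (Ch := Ch) (n := n) s with h1 | h1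
      · omega
      · exact Or.inl (mem_insert_of_mem (mem_filter.2 ⟨h1, h⟩))
  · intro t ht hst
    rcases mem_insert.1 ht with h | h
    · omega
    · exact (min_le_left _ _).trans (nx_le_of_mem (mem_filter.1 h).1 hst)

open Classical in
theorem np_cut {x : ℕ} (hμ : ∀ k, 0 ≤ μ k) (hx : 0 < x) (hxn : x ≤ n) (H : Pos dv μ n Ch Pay) :
    ∀ s ∈ cs0 Ch x, s ∉ bad0 Ch x → ¬ (s ∈ Ch ∧ Pay s ∧ nx Ch n s ≤ x) →
      (∀ b, s ≤ b → b ≤ min (nx Ch n s) x → tm dv μ s b ≤ 2 * TSW.nd dv s b + 3) ∧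
        1 ≤ TSW.nd dv s (min (nx Ch n s) x) := by
  intro s hs hb hp
  have hb1 : s ≠ 0 := fun h => hb (by rw [h]; exact mem_insert_self _ _)
  have hb2 : ¬ ∀ t ∈ cs0 Ch x, t ≤ s := fun h =>
    hb (mem_insert_of_mem (mem_filter.2 ⟨hs, h⟩))
  have hsC : s ∈ Ch := by
    rcases mem_insert.1 hs with h | h
    · exact absurd h hb1
    · exact (mem_filter.1 h).1
  push Not at hb2
  obtain ⟨t, ht, hst⟩ := hb2
  have htx := cs0_lt (Ch := Ch) hx t ht
  have htC : t ∈ Ch := by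
    rcases mem_insert.1 ht with h | h
    · omega
    · exact (mem_filter.1 h).1
  have h5 : nx Ch n s ≤ t := nx_le_of_mem htC hst
  have hnxx : nx Ch n s ≤ x := by omega
  have hpay : ¬ Pay s := fun h => hp ⟨hsC, h, hnxx⟩
  rw [min_eq_left hnxx]
  have hsn : s < n := by omega
  refine ⟨fun b h1 h2 => ?_, ?_⟩
  · rw [nd_eq]
    exact (tm_le_ms hμ s b).trans (H.np s hsC hpay b h1 h2)
  · have hnx : nx Ch n s ∈ Ch := by
      rcases nx_mem_or (Ch := Ch) (n := n) s with h | h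
      · omega
      · exact h
    obtain ⟨k, k1, k2, k3⟩ := H.sep s hsC _ hnx (lt_nx hsn)
    have h7 := one_le_nd (dv := dv) k1 k2 k3
    rw [← nd_eq] at h7
    exact_mod_cast h7

open Classical in
theorem Vc_le_Vw {x : ℕ} (hκ0 : 0 ≤ κ) (hκ1 : κ ≤ 1) (i : ℕ) :
    Vc κ Pay Ch n x i ≤ Vw κ (cs0 Ch x) (fun s => s ∈ Ch ∧ Pay s ∧ nx Ch n s ≤ x) i x := by
  unfold Vc Vw
  rw [← prod_filter]
  refine prod_le_prod_of_subset_of_le_one ?_ (fun _ _ => by linarith) fun _ _ _ => by linarith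
  intro s hs
  obtain ⟨_, h2, _, h4, h5, h6⟩ := mem_filter.1 hs
  exact mem_filter.2 ⟨mem_filter.2 ⟨h4, h2, h6⟩, h5⟩

theorem CM_nonneg {R : ℕ} {θ : ℝ} (hc0 : 0 < c) (hθ : 0 < θ) (hκ0 : 0 < κ) : 0 ≤ CM R c θ κ := by
  have hB := Bp_nonneg (R := R) (h := 6) hθ (by norm_num)
  have hE1 : Real.exp (-(θ * 1)) < 1 := by
    rw [Real.exp_lt_one_iff]
    linarith
  have h3 : 0 ≤ Cp R c θ 6 := by
    unfold Cp
    positivity
  have h4 : 0 < 1 - Real.exp (-(θ * 1)) := by linarith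
  unfold CM
  positivity

theorem CE_nonneg {R' : ℕ} {θ : ℝ} (hθ : 0 < θ) (hκ0 : 0 < κ) : 0 ≤ CE R' θ κ := by
  have hE1 : Real.exp (-(θ * 1)) < 1 := by
    rw [Real.exp_lt_one_iff]
    linarith
  have h4 : 0 < 1 - Real.exp (-(θ * 1)) := by linarith
  unfold CE
  positivity

open Classical in
/-- **THE SUM OVER THE MARKS OF ONE WORD, cut at `x`.** -/
theorem marks_cut {θ : ℝ} {R : ℕ} {M : Finset ℕ} (hμ : ∀ k, 0 ≤ μ k) (hμ1 : ∀ k, μ k ≤ 1)
    (hc0 : 0 < c) (hc1 : c ≤ 1) (hθ : 0 < θ) (hθ1 : θ ≤ 1) (hκ0 : 0 < κ) (hκ1 : κ ≤ 1)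
    (H : Pos dv μ n Ch Pay) {x : ℕ} (hxn : x ≤ n)
    (hR : ∀ b < x, ((range (b + 1)).filter
      (fun j => j ∈ M ∧ ∀ k, j ≤ k → k < b → ¬ dv k)).card ≤ R) :
    ∑ j ∈ M.filter (fun j => j < x), Real.exp (-(θ * W dv μ j)) *
      (UU dv μ c j (min (nx Ch n j) x) * Vc κ Pay Ch n x (nx Ch n j)) ≤ CM R c θ κ := by
  rcases Nat.eq_zero_or_pos x with hx | hx
  · subst hx
    have h1 : M.filter (fun j => j < 0) = ∅ := filter_eq_empty_iff.2 fun j _ h => by omega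
    rw [h1, sum_empty]
    exact CM_nonneg hc0 hθ hκ0
  have hcμ : ∀ k, 0 ≤ c * μ k ∧ c * μ k ≤ 1 := fun k =>
    ⟨mul_nonneg hc0.le (hμ k), mul_le_one₀ hc1 (hμ k) (hμ1 k)⟩
  have hrr : ∀ b < x, rr dv M 0 b + (if b ∈ M then 1 else 0) ≤ R := by
    intro b hb
    refine le_trans ?_ (hR b hb)
    have e1 : (range (b + 1)).filter (fun j => j ∈ M ∧ ∀ k, j ≤ k → k < b → ¬ dv k) =
        ((Ico 0 (b + 1)).filter (fun j => j ∈ M ∧ nv dv j b)) := by
      ext j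
      simp only [mem_filter, mem_range, mem_Ico, Nat.zero_le, true_and]
      refine and_congr_right fun _ => and_congr_right fun _ => ?_
      constructor
      · exact fun h k hk => h k (mem_Ico.1 hk).1 (mem_Ico.1 hk).2
      · exact fun h k h1 h2 => h k (mem_Ico.2 ⟨h1, h2⟩)
    rw [e1, Ico_succ' (Nat.zero_le b), filter_insert]
    by_cases hM : b ∈ M
    · rw [if_pos hM, if_pos ⟨hM, nv_self dv b⟩, card_insert_of_notMem (by simp)]
      exact le_rfl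
    · rw [if_neg hM, if_neg (fun h => hM h.1), add_zero]
      exact le_rfl
  have key := word_sum dv (c := c) (θ := θ) (h := 6) (κ := κ) (a0 := 2) (b0 := 3) (g := 1) (n := x)
    (μ := μ) (W := W dv μ) (M := M) (cs := cs0 Ch x) (bad := bad0 Ch x) (R := R)
    (nx := fun s => min (nx Ch n s) x)
    (pay := fun s => s ∈ Ch ∧ Pay s ∧ nx Ch n s ≤ x) hc0 hθ hκ0 hκ1 (by norm_num) (by norm_num)
    (by norm_num)
    (by norm_num) hμ (fun k => (hcμ k).2) (fun k => mul_le_one₀ hθ1 (hμ k) (hμ1 k))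
    (fun k => W_nonneg k) W_dev W_not hrr (cs0_lt hx) (cs0_nx_cut hx hxn) (np_cut hμ hx hxn H) x
  rw [sum_phases (cs := cs0 Ch x) (mem_insert_self _ _) (cs0_lt hx) (cs0_nx_cut hx hxn)]
  have hE1 : Real.exp (-(θ * 1)) < 1 := by
    rw [Real.exp_lt_one_iff]
    linarith
  have hB := Bp_nonneg (R := R) (h := 6) hθ (by norm_num)
  have h3 : 0 ≤ Cp R c θ 6 := by
    unfold Cp
    positivity
  have h4 : 0 < 1 - Real.exp (-(θ * 1)) := by linarith
  set D : ℝ := Cp R c θ 6 + Cp R c θ 6 * Real.exp (θ * 3) / (1 - Real.exp (-(θ * 1))) with hD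
  have hD0 : 0 ≤ D := by positivity
  have h5 : D ≤ D / κ := by
    rw [le_div_iff₀ hκ0]
    exact mul_le_of_le_one_right hD0 hκ1
  have h6 : ((bad0 Ch x).card : ℝ) * D ≤ 2 * (D / κ) := by
    have h7 : ((bad0 Ch x).card : ℝ) ≤ 2 := by exact_mod_cast bad0_card
    calc ((bad0 Ch x).card : ℝ) * D ≤ 2 * D := mul_le_mul_of_nonneg_right h7 hD0
      _ ≤ 2 * (D / κ) := by linarith
  have h8 : CM R c θ κ = 3 * (D / κ) := rfl
  rw [h8]
  refine le_trans ?_ (key.trans (by linarith))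
  refine sum_le_sum fun s hs => ?_
  rw [sum_mul]
  have hmm : min (min (nx Ch n s) x) x = min (nx Ch n s) x := min_eq_left (min_le_right _ _)
  have e2 : (Ico s (min (nx Ch n s) x)).filter (fun j => j ∈ M ∧ j < x) =
      (Ico s (min (nx Ch n s) x)).filter (fun j => j ∈ M) := by
    refine filter_congr fun j hj => ?_
    have := (lt_min_iff.1 (mem_Ico.1 hj).2).2
    exact ⟨fun h => h.1, fun h => ⟨h, this⟩⟩
  rw [e2]
  refine sum_le_sum fun j hj => ?_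
  obtain ⟨h9, h10⟩ := mem_Ico.1 (mem_filter.1 hj).1
  have h11 := lt_min_iff.1 h10
  rw [hmm, nx_of_phase h9 h11.1, mul_assoc, Us_eq_UU]
  refine mul_le_mul_of_nonneg_left ?_ (Real.exp_pos _).le
  have hU0 : 0 ≤ UU dv μ c j (min (nx Ch n s) x) := by
    rw [← Us_eq_UU]
    exact Us_nonneg dv (fun k => (hcμ k).2) _ _
  refine mul_le_mul_of_nonneg_left ?_ hU0
  rcases le_or_gt (nx Ch n s) x with h12 | h12
  · rw [min_eq_left h12]
    exact Vc_le_Vw hκ0.le hκ1 _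
  · rw [min_eq_right h12.le, Vw_self κ (cs0 Ch x) _ le_rfl]
    exact (Vc_bounds hκ0.le hκ1 _ _).2

open Classical in
/-- **THE EXCEPTIONAL MARKS OF ONE WORD, cut at `x`.** -/
theorem exc_cut {θ : ℝ} {R' : ℕ} {E : Finset ℕ} (hμ : ∀ k, 0 ≤ μ k)
    (hθ : 0 < θ) (hκ0 : 0 < κ) (hκ1 : κ ≤ 1) (H : Pos dv μ n Ch Pay) {x : ℕ} (hxn : x ≤ n)
    (hE : ∀ s < x, (E.filter (fun j => s ≤ j ∧ j < nx Ch n s ∧ j < x)).card ≤ R') :
    ∑ j ∈ E.filter (fun j => j < x), Real.exp (-(θ * W dv μ j)) * Vc κ Pay Ch n x (nx Ch n j) ≤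
      CE R' θ κ := by
  have hE1 : Real.exp (-(θ * 1)) < 1 := by
    rw [Real.exp_lt_one_iff]
    linarith
  have h4 : 0 < 1 - Real.exp (-(θ * 1)) := by linarith
  set D : ℝ := R' + R' * Real.exp (θ * 3) / (1 - Real.exp (-(θ * 1))) with hD
  have hD0 : 0 ≤ D := by positivity
  have h8 : CE R' θ κ = 3 * (D / κ) := rfl
  rcases Nat.eq_zero_or_pos x with hx | hx
  · subst hx
    have h1 : E.filter (fun j => j < 0) = ∅ := filter_eq_empty_iff.2 fun j _ h => by omega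
    rw [h1, sum_empty, h8]
    positivity
  have key := word_exc dv (θ := θ) (h := 6) (κ := κ) (a0 := 2) (b0 := 3) (g := 1) (n := x)
    (μ := μ) (W := W dv μ) (E := E) (cs := cs0 Ch x) (bad := bad0 Ch x) (R' := R')
    (nx := fun s => min (nx Ch n s) x)
    (pay := fun s => s ∈ Ch ∧ Pay s ∧ nx Ch n s ≤ x) hθ hκ0 hκ1 (by norm_num) (by norm_num)
    (by norm_num) (fun k => W_nonneg k) W_dev W_not (cs0_lt hx) (cs0_nx_cut hx hxn)
    (np_cut hμ hx hxn H)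
    (fun s hs => by
      refine le_trans (card_le_card fun j hj => ?_) (hE s (cs0_lt hx s hs))
      obtain ⟨h9, h10⟩ := mem_filter.1 hj
      have h11 := lt_min_iff.1 (mem_Ico.1 h9).2
      exact mem_filter.2 ⟨h10, (mem_Ico.1 h9).1, h11⟩)
  rw [sum_phases (cs := cs0 Ch x) (mem_insert_self _ _) (cs0_lt hx) (cs0_nx_cut hx hxn)]
  have h5 : D ≤ D / κ := by
    rw [le_div_iff₀ hκ0]
    exact mul_le_of_le_one_right hD0 hκ1
  have h6 : ((bad0 Ch x).card : ℝ) * D ≤ 2 * (D / κ) := by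
    have h7 : ((bad0 Ch x).card : ℝ) ≤ 2 := by exact_mod_cast bad0_card
    calc ((bad0 Ch x).card : ℝ) * D ≤ 2 * D := mul_le_mul_of_nonneg_right h7 hD0
      _ ≤ 2 * (D / κ) := by linarith
  rw [h8]
  refine le_trans ?_ (key.trans (by linarith))
  refine sum_le_sum fun s hs => ?_
  rw [sum_mul]
  refine sum_le_sum fun j hj => ?_
  obtain ⟨h9, h10⟩ := mem_Ico.1 (mem_filter.1 hj).1
  have h11 := lt_min_iff.1 h10
  rw [nx_of_phase h9 h11.1]
  refine mul_le_mul_of_nonneg_left ?_ (Real.exp_pos _).le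
  rcases le_or_gt (nx Ch n s) x with h12 | h12
  · rw [min_eq_left h12]
    exact Vc_le_Vw hκ0.le hκ1 _
  · rw [min_eq_right h12.le, Vw_self κ (cs0 Ch x) _ le_rfl]
    exact (Vc_bounds hκ0.le hκ1 _ _).2

end Vale.P028.TSW
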