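import Vale.Agent.P028.H564.Walk
import Vale.Agent.P028.H132.Rows

/-!
# The sums over the marks of a word, in the frame of `H132`
-/

namespace Vale.P028.TSW

open Finset Vale.P028.RK

variable {κ : ℝ} {Pay : ℕ → Prop} {Ch : Finset ℕ} {dv : ℕ → Prop} {μ : ℕ → ℝ} {c : ℝ} {n : ℕ}

open Classical in
theorem Us_eq_UU (c : ℝ) (μ : ℕ → ℝ) (a b : ℕ) : Us dv c μ a b = UU dv μ c a b := by
  unfold Us UU
  rw [prod_filter]
  refine prod_congr rfl fun k _ => ?_
  by_cases h : dv k <;> simp [h]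

open Classical in
theorem nd_eq (a b : ℕ) : (TSW.nd dv a b : ℝ) = RK.nd dv a b := by
  unfold TSW.nd RK.nd
  rw [card_filter]
  push_cast
  rfl

open Classical in
theorem tm_le_ms (hμ : ∀ k, 0 ≤ μ k) (a b : ℕ) : tm dv μ a b ≤ ms μ a b :=
  sum_le_sum_of_subset_of_nonneg (filter_subset _ _) fun k _ _ => hμ k

/-- the starts of the phases -/
def cs0 (Ch : Finset ℕ) (n : ℕ) : Finset ℕ := insert 0 (Ch.filter (fun s => s < n))

theorem cs0_lt (hn : 0 < n) : ∀ s ∈ cs0 Ch n, s < n := by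
  intro s hs
  rcases mem_insert.1 hs with h | h
  · omega
  · exact (mem_filter.1 h).2

theorem cs0_nx (hn : 0 < n) : ∀ s ∈ cs0 Ch n, s < nx Ch n s ∧
    (nx Ch n s ∈ cs0 Ch n ∨ nx Ch n s = n) ∧ ∀ t ∈ cs0 Ch n, s < t → nx Ch n s ≤ t := by
  intro s hs
  have hsn := cs0_lt hn s hs
  refine ⟨lt_nx hsn, ?_, ?_⟩
  · rcases nx_mem_or (Ch := Ch) (n := n) s with h | h
    · exact Or.inr h
    · rcases Nat.lt_or_ge (nx Ch n s) n with h1 | h1
      · exact Or.inl (mem_insert_of_mem (mem_filter.2 ⟨h, h1⟩))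
      · exact Or.inr (le_antisymm (nx_le s) h1)
  · intro t ht hst
    rcases mem_insert.1 ht with h | h
    · omega
    · exact nx_le_of_mem (mem_filter.1 h).1 hst

/-- the phase of a position -/
theorem nx_of_phase {s j : ℕ} (h1 : s ≤ j) (h2 : j < nx Ch n s) : nx Ch n j = nx Ch n s := by
  have hjn : j < n := lt_of_lt_of_le h2 (nx_le s)
  refine le_antisymm ?_ ?_
  · rcases nx_mem_or (Ch := Ch) (n := n) s with h | h
    · rw [h]
      exact nx_le j
    · exact nx_le_of_mem h h2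
  · rcases nx_mem_or (Ch := Ch) (n := n) j with h | h
    · rw [h]
      exact nx_le s
    · exact nx_le_of_mem h (lt_of_le_of_lt h1 (lt_nx hjn))

open Classical in
theorem Vt_le_Vw (hκ0 : 0 ≤ κ) (hκ1 : κ ≤ 1) (i : ℕ) :
    Vt κ Pay Ch i ≤ Vw κ (cs0 Ch n) (fun s => s ∈ Ch ∧ Pay s) i n := by
  unfold Vt Vw
  rw [← prod_filter]
  refine prod_le_prod_of_subset_of_le_one ?_ (fun _ _ => by linarith) fun _ _ _ => by linarith
  intro s hs
  obtain ⟨_, h2, _, h4, h5⟩ := mem_filter.1 hs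
  exact mem_filter.2 ⟨mem_filter.2 ⟨h4, h2⟩, h5⟩

/-- the phases without growth: the first interval and the last phase -/
def bad0 (Ch : Finset ℕ) (n : ℕ) : Finset ℕ :=
  insert 0 ((cs0 Ch n).filter (fun s => ∀ t ∈ cs0 Ch n, t ≤ s))

theorem bad0_card : (bad0 Ch n).card ≤ 2 := by
  unfold bad0
  refine (card_insert_le _ _).trans ?_
  have h : ((cs0 Ch n).filter (fun s => ∀ t ∈ cs0 Ch n, t ≤ s)).card ≤ 1 := by
    rw [card_le_one]
    intro a ha b hb
    exact le_antisymm ((mem_filter.1 hb).2 a (mem_filter.1 ha).1)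
      ((mem_filter.1 ha).2 b (mem_filter.1 hb).1)
  omega

open Classical in
theorem np0 (hμ : ∀ k, 0 ≤ μ k) (hn : 0 < n) (H : Pos dv μ n Ch Pay) :
    ∀ s ∈ cs0 Ch n, s ∉ bad0 Ch n → ¬ (s ∈ Ch ∧ Pay s) →
      (∀ b, s ≤ b → b ≤ nx Ch n s → tm dv μ s b ≤ 2 * TSW.nd dv s b + 3) ∧
        1 ≤ TSW.nd dv s (nx Ch n s) := by
  intro s hs hb hp
  have hb1 : s ≠ 0 := fun h => hb (by rw [h]; exact mem_insert_self _ _)
  have hb2 : ¬ ∀ t ∈ cs0 Ch n, t ≤ s := fun h =>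
    hb (mem_insert_of_mem (mem_filter.2 ⟨hs, h⟩))
  have hsC : s ∈ Ch := by
    rcases mem_insert.1 hs with h | h
    · exact absurd h hb1
    · exact (mem_filter.1 h).1
  have hpay : ¬ Pay s := fun h => hp ⟨hsC, h⟩
  refine ⟨fun b h1 h2 => ?_, ?_⟩
  · rw [nd_eq]
    exact (tm_le_ms hμ s b).trans (H.np s hsC hpay b h1 h2)
  · push Not at hb2
    obtain ⟨t, ht, hst⟩ := hb2
    have htC : t ∈ Ch := by
      rcases mem_insert.1 ht with h | h
      · omega
      · exact (mem_filter.1 h).1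
    obtain ⟨_, h3, h4⟩ := cs0_nx (Ch := Ch) hn s hs
    have hnx : nx Ch n s ∈ Ch := by
      rcases nx_mem_or (Ch := Ch) (n := n) s with h | h
      · have h5 := h4 t ht hst
        have h6 := cs0_lt (Ch := Ch) hn t ht
        omega
      · exact h
    obtain ⟨k, k1, k2, k3⟩ := H.sep s hsC _ hnx (lt_nx (cs0_lt hn s hs))
    have h7 := one_le_nd (dv := dv) k1 k2 k3
    rw [← nd_eq] at h7
    exact_mod_cast h7

theorem W_dev (k : ℕ) (h : dv k) : W dv μ k + 6 ≤ W dv μ (k + 1) := (W_succ_dev h).ge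

theorem W_not (k : ℕ) (h : ¬ dv k) : W dv μ k - μ k ≤ W dv μ (k + 1) := by
  rw [W_succ_not h]
  exact le_max_right _ _

/-- the constant for the marks -/
noncomputable def CM (R : ℕ) (c θ κ : ℝ) : ℝ :=
  3 * ((Cp R c θ 6 + Cp R c θ 6 * Real.exp (θ * 3) / (1 - Real.exp (-(θ * 1)))) / κ)

open Classical in
/-- **THE SUM OVER THE MARKS OF ONE WORD.** `M` = marks (at most `R` of them in an interval without
deviation), `ew` an arbitrary position: the marks before `ew`, discounted up to `ew` or to the end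
of their phase, with the payments of the later phases. -/
theorem marks_sum {θ : ℝ} {R : ℕ} {M : Finset ℕ} (hμ : ∀ k, 0 ≤ μ k) (hμ1 : ∀ k, μ k ≤ 1)
    (hc0 : 0 < c) (hc1 : c ≤ 1) (hθ : 0 < θ) (hθ1 : θ ≤ 1) (hκ0 : 0 < κ) (hκ1 : κ ≤ 1)
    (H : Pos dv μ n Ch Pay)
    (hR : ∀ b < n, ((range (b + 1)).filter
      (fun j => j ∈ M ∧ ∀ k, j ≤ k → k < b → ¬ dv k)).card ≤ R) (ew : ℕ) :
    ∑ j ∈ M.filter (fun j => j < n ∧ j < ew), Real.exp (-(θ * W dv μ j)) *
      (UU dv μ c j (min (nx Ch n j) ew) * Vt κ Pay Ch (nx Ch n j)) ≤ CM R c θ κ := by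
  rcases Nat.eq_zero_or_pos n with hn | hn
  · subst hn
    have h1 : M.filter (fun j => j < 0 ∧ j < ew) = ∅ := filter_eq_empty_iff.2 fun j _ h => by omega
    rw [h1, sum_empty]
    have hB := Bp_nonneg (R := R) (h := 6) hθ (by norm_num)
    have hE1 : Real.exp (-(θ * 1)) < 1 := by
      rw [Real.exp_lt_one_iff]
      linarith
    have h3 : 0 ≤ Cp R c θ 6 := by
      unfold Cp
      positivity
    have h4 : 0 < 1 - Real.exp (-(θ * 1)) := by linarith
    unfold CM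
    positivity
  have hcμ : ∀ k, 0 ≤ c * μ k ∧ c * μ k ≤ 1 := fun k =>
    ⟨mul_nonneg hc0.le (hμ k), mul_le_one₀ hc1 (hμ k) (hμ1 k)⟩
  have hrr : ∀ b < n, rr dv M 0 b + (if b ∈ M then 1 else 0) ≤ R := by
    intro b hb
    refine le_trans ?_ (hR b hb)
    have e1 : (range (b + 1)).filter (fun j => j ∈ M ∧ ∀ k, j ≤ k → k < b → ¬ dv k) =
        ((Ico 0 (b + 1)).filter (fun j => j ∈ M ∧ nv dv j b)) := by
      ext j
      simp only [mem_filter, mem_range, mem_Ico, Nat.zero_le, true_and]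
      refine and_congr_right fun _ => and_congr_right fun _ => ?_
      constructor
      · exact fun h k hk => h k (mem_Ico.1 hk).1 (mem_Ico.1 hk).2
      · exact fun h k h1 h2 => h k (mem_Ico.2 ⟨h1, h2⟩)
    rw [e1, Ico_succ' (Nat.zero_le b), filter_insert]
    by_cases hM : b ∈ M
    · rw [if_pos hM, if_pos ⟨hM, nv_self dv b⟩, card_insert_of_notMem (by simp)]
      exact le_rfl
    · rw [if_neg hM, if_neg (fun h => hM h.1), add_zero]
      exact le_rfl
  have key := word_sum dv (c := c) (θ := θ) (h := 6) (κ := κ) (a0 := 2) (b0 := 3) (g := 1) (n := n)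
    (μ := μ) (W := W dv μ) (M := M) (cs := cs0 Ch n) (bad := bad0 Ch n) (R := R) (nx := nx Ch n)
    (pay := fun s => s ∈ Ch ∧ Pay s) hc0 hθ hκ0 hκ1 (by norm_num) (by norm_num) (by norm_num)
    (by norm_num) hμ (fun k => (hcμ k).2) (fun k => mul_le_one₀ hθ1 (hμ k) (hμ1 k))
    (fun k => W_nonneg k) W_dev W_not hrr (cs0_lt hn) (cs0_nx hn) (np0 hμ hn H) ew
  have h1 : ∑ j ∈ M.filter (fun j => j < n ∧ j < ew), Real.exp (-(θ * W dv μ j)) *
      (UU dv μ c j (min (nx Ch n j) ew) * Vt κ Pay Ch (nx Ch n j)) =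
      ∑ s ∈ cs0 Ch n, ∑ j ∈ (Ico s (nx Ch n s)).filter (fun j => j ∈ M.filter (fun j => j < ew)),
        Real.exp (-(θ * W dv μ j)) *
          (UU dv μ c j (min (nx Ch n j) ew) * Vt κ Pay Ch (nx Ch n j)) := by
    rw [← sum_phases (cs := cs0 Ch n) (mem_insert_self _ _) (cs0_lt hn) (cs0_nx hn)]
    rw [filter_filter]
    refine sum_congr ?_ fun _ _ => rfl
    ext j
    simp only [mem_filter]
    tauto
  rw [h1]
  have hE1 : Real.exp (-(θ * 1)) < 1 := by
    rw [Real.exp_lt_one_iff]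
    linarith
  have hB := Bp_nonneg (R := R) (h := 6) hθ (by norm_num)
  have h3 : 0 ≤ Cp R c θ 6 := by
    unfold Cp
    positivity
  have h4 : 0 < 1 - Real.exp (-(θ * 1)) := by linarith
  set D : ℝ := Cp R c θ 6 + Cp R c θ 6 * Real.exp (θ * 3) / (1 - Real.exp (-(θ * 1))) with hD
  have hD0 : 0 ≤ D := by positivity
  have h5 : D ≤ D / κ := by
    rw [le_div_iff₀ hκ0]
    exact mul_le_of_le_one_right hD0 hκ1
  have h6 : ((bad0 Ch n).card : ℝ) * D ≤ 2 * (D / κ) := by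
    have h7 : ((bad0 Ch n).card : ℝ) ≤ 2 := by exact_mod_cast bad0_card
    calc ((bad0 Ch n).card : ℝ) * D ≤ 2 * D := mul_le_mul_of_nonneg_right h7 hD0
      _ ≤ 2 * (D / κ) := by linarith
  have h8 : CM R c θ κ = 3 * (D / κ) := rfl
  rw [h8]
  refine le_trans ?_ (key.trans (by linarith))
  refine sum_le_sum fun s hs => ?_
  rw [sum_mul]
  have e2 : (Ico s (nx Ch n s)).filter (fun j => j ∈ M.filter (fun j => j < ew)) =
      (Ico s (nx Ch n s)).filter (fun j => j ∈ M ∧ j < ew) := by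
    refine filter_congr fun j _ => ?_
    rw [mem_filter]
  rw [e2]
  refine sum_le_sum fun j hj => ?_
  obtain ⟨h9, h10⟩ := mem_Ico.1 (mem_filter.1 hj).1
  rw [nx_of_phase h9 h10, mul_assoc, Us_eq_UU]
  refine mul_le_mul_of_nonneg_left ?_ (Real.exp_pos _).le
  refine mul_le_mul_of_nonneg_left (Vt_le_Vw hκ0.le hκ1 _) ?_
  rw [← Us_eq_UU]
  exact Us_nonneg dv (fun k => (hcμ k).2) _ _

/-- the constant for the exceptional marks -/
noncomputable def CE (R' : ℕ) (θ κ : ℝ) : ℝ :=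
  3 * ((R' + R' * Real.exp (θ * 3) / (1 - Real.exp (-(θ * 1)))) / κ)

open Classical in
/-- **THE EXCEPTIONAL MARKS OF ONE WORD**: at most `R'` in each phase, no discount. -/
theorem exc_sum {θ : ℝ} {R' : ℕ} {E : Finset ℕ} (hμ : ∀ k, 0 ≤ μ k)
    (hθ : 0 < θ) (hκ0 : 0 < κ) (hκ1 : κ ≤ 1) (H : Pos dv μ n Ch Pay)
    (hE : ∀ s < n, (E.filter (fun j => s ≤ j ∧ j < nx Ch n s)).card ≤ R') :
    ∑ j ∈ E.filter (fun j => j < n), Real.exp (-(θ * W dv μ j)) * Vt κ Pay Ch (nx Ch n j) ≤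
      CE R' θ κ := by
  have hE1 : Real.exp (-(θ * 1)) < 1 := by
    rw [Real.exp_lt_one_iff]
    linarith
  have h4 : 0 < 1 - Real.exp (-(θ * 1)) := by linarith
  set D : ℝ := R' + R' * Real.exp (θ * 3) / (1 - Real.exp (-(θ * 1))) with hD
  have hD0 : 0 ≤ D := by positivity
  have h8 : CE R' θ κ = 3 * (D / κ) := rfl
  rcases Nat.eq_zero_or_pos n with hn | hn
  · subst hn
    have h1 : E.filter (fun j => j < 0) = ∅ := filter_eq_empty_iff.2 fun j _ h => by omega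
    rw [h1, sum_empty, h8]
    positivity
  have key := word_exc dv (θ := θ) (h := 6) (κ := κ) (a0 := 2) (b0 := 3) (g := 1) (n := n)
    (μ := μ) (W := W dv μ) (E := E) (cs := cs0 Ch n) (bad := bad0 Ch n) (R' := R') (nx := nx Ch n)
    (pay := fun s => s ∈ Ch ∧ Pay s) hθ hκ0 hκ1 (by norm_num) (by norm_num)
    (by norm_num) (fun k => W_nonneg k) W_dev W_not (cs0_lt hn) (cs0_nx hn) (np0 hμ hn H)
    (fun s hs => by
      refine le_trans (card_le_card fun j hj => ?_) (hE s (cs0_lt hn s hs))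
      obtain ⟨h9, h10⟩ := mem_filter.1 hj
      exact mem_filter.2 ⟨h10, mem_Ico.1 h9⟩)
  rw [sum_phases (cs := cs0 Ch n) (mem_insert_self _ _) (cs0_lt hn) (cs0_nx hn)]
  have h5 : D ≤ D / κ := by
    rw [le_div_iff₀ hκ0]
    exact mul_le_of_le_one_right hD0 hκ1
  have h6 : ((bad0 Ch n).card : ℝ) * D ≤ 2 * (D / κ) := by
    have h7 : ((bad0 Ch n).card : ℝ) ≤ 2 := by exact_mod_cast bad0_card
    calc ((bad0 Ch n).card : ℝ) * D ≤ 2 * D := mul_le_mul_of_nonneg_right h7 hD0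
      _ ≤ 2 * (D / κ) := by linarith
  rw [h8]
  refine le_trans ?_ (key.trans (by linarith))
  refine sum_le_sum fun s hs => ?_
  rw [sum_mul]
  refine sum_le_sum fun j hj => ?_
  obtain ⟨h9, h10⟩ := mem_Ico.1 (mem_filter.1 hj).1
  rw [nx_of_phase h9 h10]
  exact mul_le_mul_of_nonneg_left (Vt_le_Vw hκ0.le hκ1 _) (Real.exp_pos _).le

end Vale.P028.TSW
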