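import Vale.Agent.P028.H530.GainW
import Vale.Agent.P028.H132.Dmax
attribute [-instance] ProperSMul.toContinuousSMul IsTopologicalTorsor.toContinuousSMul IdemSemiring.toCanonicallyOrderedAdd IdemSemiring.toMulLeftMono IdemSemiring.toMulRightMono AddQuantale.instAddLeftMono AddQuantale.instAddRightMono Quantale.instMulLeftMono Quantale.instMulRightMono FiniteDimensional.rclike_to_real IsScalarTower.complexToReal FiniteDimensional.complexToReal

/-!
# The natural law of the outer labels of the moduli of one cell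

`Y` is a set of moduli in one cell at the level `z_j`, with different outer deficits `M g j`. The
weights `Wt g j` are then the probabilities of different words. `T` = places where no element of
`Y` has a label (for example the split primes).
-/

namespace Vale.P028.SK

open Finset CF RN

variable {g : Cfg}

open Classical in
/-- the weights of the labels of the centre `Q`, deterministic at the places of `T` -/
noncomputable def wTn (g : Cfg) (Q : ℕ) (T : ℕ → Prop) (k : Fin (N g)) (e : Fin (Eb g + 1)) : ℝ :=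
  if T k then (if e = 0 then 1 else 0) else wb g Q k e

theorem wTn_nonneg (Q : ℕ) (T : ℕ → Prop) : ∀ k e, 0 ≤ wTn g Q T k e := by
  intro k e
  unfold wTn
  split_ifs
  · norm_num
  · exact le_rfl
  · exact wb_nonneg Q k e

theorem wTn_sum {Q : ℕ} (hE : ∀ p, Q.factorization p ≤ Eb g) (T : ℕ → Prop) :
    ∀ k, ∑ e, wTn g Q T k e = 1 := by
  classical
  intro k
  unfold wTn
  by_cases h : T k
  · simp [h]
  · simp only [if_neg h]
    exact wj_sum hE k

/-- the deviation mass of a place -/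
theorem wTn_zero (Q : ℕ) (T : ℕ → Prop) (k : Fin (N g)) :
    1 - wTn g Q T k 0 ≤ hw g Q k ∧ (T k → 1 - wTn g Q T k 0 = 0) := by
  classical
  unfold wTn
  by_cases h : T k
  · simp only [h, if_true]
    exact ⟨by linarith [hw_nonneg (g := g) Q k], fun _ => by norm_num⟩
  · rw [if_neg h, wb_zero]
    exact ⟨by linarith, fun h2 => absurd h2 h⟩

/-- the outer word of `y` -/
noncomputable def wM (g : Cfg) (j y : ℕ) : Fin (N g) → Fin (Eb g + 1) := wd (N g) (Eb g) (M g j y)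

theorem M_le_Eb {j : ℕ} (hz : zs g ≤ z g j) {y : ℕ} (hy : y ∈ g.V) (p : ℕ) :
    (M g j y).factorization p ≤ Eb g := by
  unfold M
  rw [od_fac]
  split_ifs with h
  · have h1 := Qc_exp hy p
    rw [Qc_fac, if_pos (PO_mono hz h)] at h1
    omega
  · exact Nat.zero_le _

theorem wM_val {j : ℕ} (hz : zs g ≤ z g j) {y : ℕ} (hy : y ∈ g.V) (k : Fin (N g)) :
    ((wM g j y k : Fin (Eb g + 1)) : ℕ) = (M g j y).factorization (N g - k) := by
  unfold wM
  exact wd_val (M_le_Eb hz hy) k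

/-- the outer word has the labels of the word at the places `< N - z_j` and is trivial inside -/
theorem wM_eq {j : ℕ} (hz : zs g ≤ z g j) {y : ℕ} (hy : y ∈ g.V) (k : Fin (N g)) :
    wM g j y k = if (k : ℕ) < N g - z g j then wo g y k else 0 := by
  refine Fin.ext ?_
  rw [wM_val hz hy]
  unfold M
  rw [od_fac]
  split_ifs with h1 h2 h2
  · rw [wo_val hy, Md_fac, if_pos (PO_mono hz h1)]
  · exfalso
    have := (mem_PO.1 h1).2.1
    omega
  · rw [wo_val hy, Md_fac, if_neg]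
    intro h3
    have h4 := mem_PO.1 h3
    exact h1 (mem_PO.2 ⟨h4.1, by omega, h4.2.2⟩)
  · rfl

/-- **THE NATURAL LAW OF A CELL.** -/
theorem cell_law {j : ℕ} (hz : zs g ≤ z g j) {q0 : ℕ} {Y : Finset ℕ}
    (hY : Y ⊆ g.V) (hcell : ∀ y ∈ Y, y ∈ NT.cell g.V (f g) (thr g) (N g) (z g j) q0)
    (hinj : Set.InjOn (M g j) (Y : Set ℕ)) (T : ℕ → Prop)
    (hT : ∀ y ∈ Y, ∀ k : Fin (N g), T k → wM g j y k = 0)
    {Φ : (Fin (N g) → Fin (Eb g + 1)) → ℝ} (hΦ : ∀ ω, 0 ≤ Φ ω) :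
    ∑ y ∈ Y, Wt g j y * Φ (wM g j y) ≤
      Ex (wTn g (xc (PO (z g j) (N g)) (kc g q0)) T) Φ := by
  classical
  set Q := xc (PO (z g j) (N g)) (kc g q0) with hQ
  have hQ0 : 0 < Q := xcPO_pos _ _ _
  have hQN : ∀ p ∈ Q.primeFactors, p ≤ N g := by
    intro p hp
    rw [← Nat.support_factorization, Finsupp.mem_support_iff, hQ, xcPO_fac] at hp
    by_contra h
    exact hp (if_neg fun h2 => h (mem_PO.1 h2).2.2)
  rcases Y.eq_empty_or_nonempty with hemp | ⟨y0, hy0⟩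
  · rw [hemp, sum_empty]
    exact Ex_nonneg (wTn_nonneg Q T) hΦ
  have hQy : ∀ y ∈ Y, xc (PO (z g j) (N g)) (kc g y) = Q := fun y hy => by
    rw [hQ, centre_congr (hcell y hy)]
  have hE : ∀ p, Q.factorization p ≤ Eb g := by
    intro p
    rw [← hQy y0 hy0, xcPO_fac]
    split_ifs with h
    · have h1 := Qc_exp (hY hy0) p
      rwa [Qc_fac, if_pos (PO_mono hz h)] at h1
    · exact Nat.zero_le _
  have hdvd : ∀ y ∈ Y, M g j y ∣ Q := fun y hy => by
    rw [← hQy y hy]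
    exact od_dvd _ _ _ _
  have hwt : ∀ y ∈ Y, Wt g j y ≤ Pr (wTn g Q T) (wM g j y) := by
    intro y hy
    have e1 : Wt g j y = Pr (wb g Q) (wM g j y) := by
      unfold wb wM
      rw [Pr_wd hQ0 hQN hE (hdvd y hy)]
      unfold Wt
      rw [hQy y hy]
    rw [e1]
    unfold Pr
    refine prod_le_prod (fun k _ => wb_nonneg Q k _) fun k _ => ?_
    unfold wTn
    by_cases h : T k
    · rw [if_pos h, hT y hy k h, if_pos rfl, wb_zero]
      linarith [hw_nonneg (g := g) Q k]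
    · rw [if_neg h]
  have hinj2 : Set.InjOn (wM g j) (Y : Set ℕ) := by
    intro a ha b hb hab
    exact hinj ha hb (wd_inj hQN hE hQ0 (hdvd a ha) (hdvd b hb) hab)
  calc ∑ y ∈ Y, Wt g j y * Φ (wM g j y)
      ≤ ∑ y ∈ Y, Pr (wTn g Q T) (wM g j y) * Φ (wM g j y) :=
        sum_le_sum fun y hy => mul_le_mul_of_nonneg_right (hwt y hy) (hΦ _)
    _ = ∑ ω ∈ Y.image (wM g j), Pr (wTn g Q T) ω * Φ ω :=
        (sum_image (f := fun ω => Pr (wTn g Q T) ω * Φ ω) hinj2).symm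
    _ ≤ Ex (wTn g Q T) Φ :=
        sum_le_sum_of_subset_of_nonneg (subset_univ _) fun ω _ _ =>
          mul_nonneg (Pr_nonneg (wTn_nonneg Q T) ω) (hΦ ω)

theorem W_congr2 {dv dv' : ℕ → Prop} {μ μ' : ℕ → ℝ} {i : ℕ} (h : ∀ k < i, (dv k ↔ dv' k))
    (hμ : ∀ k < i, μ k = μ' k) : RK.W dv μ i = RK.W dv' μ' i := by
  classical
  induction i with
  | zero => rfl
  | succ i ih =>
    have h1 := ih (fun k hk => h k (by omega)) fun k hk => hμ k (by omega)
    by_cases hd : dv i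
    · rw [RK.W_succ_dev hd, RK.W_succ_dev ((h i (Nat.lt_succ_self i)).1 hd), h1]
    · rw [RK.W_succ_not hd, RK.W_succ_not (fun h' => hd ((h i (Nat.lt_succ_self i)).2 h')), h1,
        hμ i (Nat.lt_succ_self i)]

/-- the walk of the outer word -/
theorem W_wM {j : ℕ} (hz : zs g ≤ z g j) {y : ℕ} (hy : y ∈ g.V) {μ μ' : ℕ → ℝ}
    (hμ : ∀ k < N g - z g j, μ k = μ' k) :
    RK.W (RK.dvw (fun _ => 0) (wo g y)) μ (N g - z g j) =
      RK.W (RK.dvw (fun _ => 0) (wM g j y)) μ' (N g - z g j) := by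
  refine W_congr2 (fun k hk => ?_) hμ
  unfold RK.dvw
  constructor
  · rintro ⟨h1, h2⟩
    refine ⟨h1, ?_⟩
    rw [wM_eq hz hy, if_pos (by exact hk)]
    exact h2
  · rintro ⟨h1, h2⟩
    refine ⟨h1, ?_⟩
    rw [wM_eq hz hy, if_pos (by exact hk)] at h2
    exact h2

/-- **The exponential moment of the walk over a cell.** -/
theorem cell_exp_W {j : ℕ} (hz : zs g ≤ z g j) {q0 : ℕ} {Y : Finset ℕ}
    (hY : Y ⊆ g.V) (hcell : ∀ y ∈ Y, y ∈ NT.cell g.V (f g) (thr g) (N g) (z g j) q0)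
    (hinj : Set.InjOn (M g j) (Y : Set ℕ)) {T : ℕ → Prop}
    (hT : ∀ y ∈ Y, ∀ k : Fin (N g), T k → wM g j y k = 0)
    {μ : ℕ → ℕ → ℝ} {μ0 : ℕ → ℝ} (hμ : ∀ y ∈ Y, ∀ k < N g - z g j, μ y k = μ0 k)
    (hμ0 : ∀ k, 0 ≤ μ0 k) (hμ1 : ∀ k, μ0 k ≤ 1 / 4) {ε : ℝ} (hε0 : 0 ≤ ε)
    (hε : ε * Real.exp 24 ≤ 1)
    (hdev : ∀ k < N g - z g j, ¬ T k →
      hw g (xc (PO (z g j) (N g)) (kc g q0)) k ≤ ε * μ0 k) :
    ∑ y ∈ Y, Wt g j y *
      Real.exp (4 * RK.W (RK.dvw (fun _ => 0) (wo g y)) (μ y) (N g - z g j)) ≤ 4 := by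
  classical
  rcases Y.eq_empty_or_nonempty with hemp | ⟨y0, hy0⟩
  · rw [hemp, sum_empty]
    norm_num
  set Q := xc (PO (z g j) (N g)) (kc g q0) with hQ
  have hE : ∀ p, Q.factorization p ≤ Eb g := by
    intro p
    have hQy : xc (PO (z g j) (N g)) (kc g y0) = Q := by
      rw [hQ, centre_congr (hcell y0 hy0)]
    rw [← hQy, xcPO_fac]
    split_ifs with h
    · have h1 := Qc_exp (hY hy0) p
      rwa [Qc_fac, if_pos (PO_mono hz h)] at h1
    · exact Nat.zero_le _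
  have hdev' : ∀ k : Fin (N g), 1 - wTn g Q T k 0 ≤ ε * μ0 k := by
    intro k
    have h0 : 0 ≤ ε * μ0 k := mul_nonneg hε0 (hμ0 k)
    by_cases h1 : T k
    · rw [(wTn_zero Q T k).2 h1]
      exact h0
    · by_cases h2 : (k : ℕ) < N g - z g j
      · exact (wTn_zero Q T k).1.trans (hdev k h2 h1)
      · have h3 : hw g Q k = 0 := by
          unfold hw
          rw [if_neg]
          rw [not_not, hQ, xcPO_fac, if_neg]
          intro h4
          have := (mem_PO.1 h4).2.1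
          omega
        have := (wTn_zero Q T k).1
        rw [h3] at this
        linarith
  have e1 : ∑ y ∈ Y, Wt g j y *
      Real.exp (4 * RK.W (RK.dvw (fun _ => 0) (wo g y)) (μ y) (N g - z g j)) =
      ∑ y ∈ Y, Wt g j y * (fun ω => Real.exp (4 * RK.W (RK.dvw (fun _ => 0) ω) μ0 (N g - z g j)))
        (wM g j y) := by
    refine sum_congr rfl fun y hy => ?_
    rw [W_wM hz (hY hy) (hμ y hy)]
  rw [e1]
  refine (cell_law hz hY hcell hinj T hT
    (Φ := fun ω => Real.exp (4 * RK.W (RK.dvw (fun _ => 0) ω) μ0 (N g - z g j)))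
    fun ω => (Real.exp_pos _).le).trans ?_
  exact RK.Ex_exp_W (wTn_nonneg Q T) (wTn_sum hE T) hμ0 hμ1 hε hdev' (Nat.sub_le _ _)

/-- the mass of a place `< N - z_j` in terms of the centre of the cell -/
theorem hw_outer {j q0 k : ℕ} (hz : zs g ≤ z g j) (hk : k < N g - z g j) :
    hw g (xc (PO (z g j) (N g)) (kc g q0)) k = hw g (Qc g q0) k := by
  have h : (xc (PO (z g j) (N g)) (kc g q0)).factorization (N g - k) =
      (Qc g q0).factorization (N g - k) := by
    rw [xcPO_fac, Qc_fac]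
    by_cases h1 : N g - k ∈ PO (z g j) (N g)
    · rw [if_pos h1, if_pos (PO_mono hz h1)]
    · rw [if_neg h1, if_neg]
      intro h2
      have h3 := mem_PO.1 h2
      exact h1 (mem_PO.2 ⟨h3.1, by omega, h3.2.2⟩)
  unfold hw
  rw [h]

/-- **THE LAW OF THE WALK OVER THE PARTNERS** (form used in the class TS). -/
theorem law_W {j q0 : ℕ} (hz : zs g ≤ z g j)
    {Y : Finset ℕ} (hY : ∀ y ∈ Y, y ∈ g.V ∧ y ∈ NT.cell g.V (f g) (thr g) (N g) (z g j) q0)
    (hinj : Set.InjOn (M g j) (Y : Set ℕ)) {mu : ℕ → ℝ} (hmu : ∀ k, 0 ≤ mu k)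
    (hmu1 : ∀ k, mu k ≤ 1 / 4) {ε : ℝ} (hε0 : 0 ≤ ε) (hε : ε * Real.exp 24 ≤ 1)
    (hdev : ∀ k, k < N g - z g j → (∃ y ∈ Y, uw g y k = true) → hw g (Qc g q0) k ≤ ε * mu k) :
    ∑ y ∈ Y, Wt g j y *
      Real.exp (4 * RK.W (fun k => uw g y k = true) mu (N g - z g j)) ≤ 4 := by
  classical
  have hflag : ∀ y ∈ Y, ∀ k, (uw g y k = true ↔ RK.dvw (fun _ => 0) (wo g y) k) := by
    intro y _ k
    unfold uw RK.dvw
    rw [decide_eq_true_iff]
  have e1 : ∀ y ∈ Y, RK.W (fun k => uw g y k = true) mu (N g - z g j) =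
      RK.W (RK.dvw (fun _ => 0) (wo g y)) mu (N g - z g j) := fun y hy =>
    RK.W_congr fun k _ => hflag y hy k
  rw [sum_congr rfl fun y hy => by rw [e1 y hy]]
  refine cell_exp_W (T := fun k => ¬ ∃ y ∈ Y, uw g y k = true) (μ := fun _ => mu) (μ0 := mu) hz
    (fun y hy => (hY y hy).1) (fun y hy => (hY y hy).2) hinj ?_ (fun _ _ _ _ => rfl) hmu hmu1
    hε0 hε ?_
  · intro y hy k hk
    rw [wM_eq hz (hY y hy).1]
    split_ifs with h
    · by_contra hne
      refine hk ⟨y, hy, ?_⟩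
      rw [hflag y hy]
      exact ⟨k.2, hne⟩
    · rfl
  · intro k hk hT
    rw [hw_outer hz hk]
    exact hdev k hk (not_not.1 hT)

end Vale.P028.SK
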