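import Vale.Agent.P028.MathlibUsed
import Vale.Agent.P028.R627.FDefs
import Vale.Agent.P028.H564.SizeL
import Vale.Agent.P028.R26.OmtB
attribute [-instance] ProperSMul.toContinuousSMul IsTopologicalTorsor.toContinuousSMul IdemSemiring.toCanonicallyOrderedAdd IdemSemiring.toMulLeftMono IdemSemiring.toMulRightMono AddQuantale.instAddLeftMono AddQuantale.instAddRightMono Quantale.instMulLeftMono Quantale.instMulRightMono FiniteDimensional.rclike_to_real IsScalarTower.complexToReal FiniteDimensional.complexToReal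

/-!
# The bound of one pair, split at the cut `x`
-/

namespace Vale.P028.SK

open Finset CF RN

/-! ### Real arithmetic -/

theorem half_pair {A B W : ℝ} (hA : 0 ≤ A) (hB : 0 ≤ B) (hW : 0 ≤ W) :
    (A * W) ^ (1 / 2 : ℝ) * (B * W) ^ (1 / 2 : ℝ) = (A * B) ^ (1 / 2 : ℝ) * W := by
  rw [← Real.sqrt_eq_rpow, ← Real.sqrt_eq_rpow, ← Real.sqrt_eq_rpow, ← Real.sqrt_mul
    (mul_nonneg hA hW)]
  have e : A * W * (B * W) = A * B * (W * W) := by ring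
  rw [e, Real.sqrt_mul (mul_nonneg hA hB), Real.sqrt_mul_self hW]

/-- the identity behind the splitting -/
theorem split_id {X Y wql wqh wrl wrh Oql Oqh Orl Orh Rql Rqh Rrl Rrh s : ℝ} (hX : 0 ≤ X)
    (hY : 0 ≤ Y) (h1 : 0 ≤ wql) (h2 : 0 ≤ wqh) (h3 : 0 ≤ wrl) (h4 : 0 ≤ wrh) (o1 : 0 < Oql)
    (o2 : 0 < Oqh) (o3 : 0 < Orl) (o4 : 0 < Orh) (r1 : 0 < Rql) (r2 : 0 < Rqh) (r3 : 0 < Rrl)
    (r4 : 0 < Rrh) :
    (X * ((wql * wqh) * (Oql * Oqh)⁻¹) * (Rql * Rqh) ^ (-(9 / 10) : ℝ) * (wrl * wrh)) ^ (1 / 2 : ℝ) *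
      (Y * ((wrl * wrh) * (Orl * Orh)⁻¹) * (Rrl * Rrh) ^ (-(9 / 10) : ℝ) * (wql * wqh)) ^
        (1 / 2 : ℝ) =
    ((Oql * Orl) ^ (-(s / 2)) * (Rql * Rrl) ^ (-(1 / 30) : ℝ) * (Rqh * Rrh) ^ (-(1 / 20) : ℝ)) *
      ((wqh * wrh) * (Oqh * Orh) ^ (-(1 / 2) : ℝ) * (Rqh * Rrh) ^ (-(2 / 5) : ℝ) *
        ((X * ((wql * Oql ^ (-(1 - s))) * wrl * (Rql * Rrl) ^ (-(5 / 12) : ℝ))) ^ (1 / 2 : ℝ) *
          (Y * ((wrl * Orl ^ (-(1 - s))) * wql * (Rrl * Rql) ^ (-(5 / 12) : ℝ))) ^ (1 / 2 : ℝ))) := by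
  have e1 : X * ((wql * wqh) * (Oql * Oqh)⁻¹) * (Rql * Rqh) ^ (-(9 / 10) : ℝ) * (wrl * wrh) =
      (X * ((Oql * Oqh)⁻¹ * (Rql * Rqh) ^ (-(9 / 10) : ℝ))) * (wql * wqh * (wrl * wrh)) := by ring
  have e2 : Y * ((wrl * wrh) * (Orl * Orh)⁻¹) * (Rrl * Rrh) ^ (-(9 / 10) : ℝ) * (wql * wqh) =
      (Y * ((Orl * Orh)⁻¹ * (Rrl * Rrh) ^ (-(9 / 10) : ℝ))) * (wql * wqh * (wrl * wrh)) := by ring
  have e3 : X * ((wql * Oql ^ (-(1 - s))) * wrl * (Rql * Rrl) ^ (-(5 / 12) : ℝ)) =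
      (X * Oql ^ (-(1 - s))) * (wql * wrl * (Rql * Rrl) ^ (-(5 / 12) : ℝ)) := by ring
  have e4 : Y * ((wrl * Orl ^ (-(1 - s))) * wql * (Rrl * Rql) ^ (-(5 / 12) : ℝ)) =
      (Y * Orl ^ (-(1 - s))) * (wql * wrl * (Rql * Rrl) ^ (-(5 / 12) : ℝ)) := by
    rw [mul_comm Rrl Rql]
    ring
  rw [e1, e2, e3, e4, half_pair (by positivity) (by positivity) (by positivity),
    half_pair (by positivity) (by positivity) (by positivity)]
  have e5 : X * ((Oql * Oqh)⁻¹ * (Rql * Rqh) ^ (-(9 / 10) : ℝ)) *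
      (Y * ((Orl * Orh)⁻¹ * (Rrl * Rrh) ^ (-(9 / 10) : ℝ))) =
      (X * Y) * ((Oql * Orl) ^ (-1 : ℝ) * (Oqh * Orh) ^ (-1 : ℝ) * (Rql * Rrl) ^ (-(9 / 10) : ℝ) *
        (Rqh * Rrh) ^ (-(9 / 10) : ℝ)) := by
    rw [Real.rpow_neg_one, Real.rpow_neg_one, Real.mul_rpow r1.le r2.le, Real.mul_rpow r3.le r4.le,
      Real.mul_rpow r1.le r3.le, Real.mul_rpow r2.le r4.le, mul_inv, mul_inv, mul_inv, mul_inv]
    ring
  have e6 : X * Oql ^ (-(1 - s)) * (Y * Orl ^ (-(1 - s))) =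
      (X * Y) * (Oql * Orl) ^ (-(1 - s)) := by
    rw [Real.mul_rpow o1.le o3.le]
    ring
  have hOl : 0 < Oql * Orl := mul_pos o1 o3
  have hOh : 0 < Oqh * Orh := mul_pos o2 o4
  have hRl : 0 < Rql * Rrl := mul_pos r1 r3
  have hRh : 0 < Rqh * Rrh := mul_pos r2 r4
  have hXY : 0 ≤ X * Y := mul_nonneg hX hY
  rw [e5, e6]
  clear e1 e2 e3 e4 e5 e6
  generalize Oql * Orl = OL at *
  generalize Oqh * Orh = OH at *
  generalize Rql * Rrl = RL at *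
  generalize Rqh * Rrh = RH at *
  generalize X * Y = XY at *
  have g1 : (XY * (OL ^ (-1 : ℝ) * OH ^ (-1 : ℝ) * RL ^ (-(9 / 10) : ℝ) *
      RH ^ (-(9 / 10) : ℝ))) ^ (1 / 2 : ℝ) = XY ^ (1 / 2 : ℝ) * (OL ^ ((-1 : ℝ) * (1 / 2)) *
      OH ^ ((-1 : ℝ) * (1 / 2)) * RL ^ (-(9 / 10) * (1 / 2) : ℝ) *
      RH ^ (-(9 / 10) * (1 / 2) : ℝ)) := by
    rw [Real.mul_rpow hXY (by positivity), Real.mul_rpow (x := OL ^ (-1 : ℝ) * OH ^ (-1 : ℝ) *
      RL ^ (-(9 / 10) : ℝ)) (by positivity) (by positivity), Real.mul_rpow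
      (x := OL ^ (-1 : ℝ) * OH ^ (-1 : ℝ)) (by positivity) (by positivity),
      Real.mul_rpow (x := OL ^ (-1 : ℝ)) (by positivity) (by positivity),
      ← Real.rpow_mul hOl.le, ← Real.rpow_mul hOh.le, ← Real.rpow_mul hRl.le,
      ← Real.rpow_mul hRh.le]
  have g2 : (XY * OL ^ (-(1 - s))) ^ (1 / 2 : ℝ) = XY ^ (1 / 2 : ℝ) *
      OL ^ (-(1 - s) * (1 / 2)) := by
    rw [Real.mul_rpow hXY (by positivity), ← Real.rpow_mul hOl.le]
  rw [g1, g2]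
  have f1 : OL ^ ((-1 : ℝ) * (1 / 2)) = OL ^ (-(s / 2)) * OL ^ (-(1 - s) * (1 / 2)) := by
    rw [← Real.rpow_add hOl]
    congr 1
    ring
  have f2 : OH ^ ((-1 : ℝ) * (1 / 2)) = OH ^ (-(1 / 2) : ℝ) := by
    congr 1
    ring
  have f3 : RL ^ (-(9 / 10) * (1 / 2) : ℝ) = RL ^ (-(1 / 30) : ℝ) * RL ^ (-(5 / 12) : ℝ) := by
    rw [← Real.rpow_add hRl]
    norm_num
  have f4 : RH ^ (-(9 / 10) * (1 / 2) : ℝ) = RH ^ (-(1 / 20) : ℝ) * RH ^ (-(2 / 5) : ℝ) := by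
    rw [← Real.rpow_add hRh]
    norm_num
  rw [f1, f2, f3, f4]
  ring

/-- the remaining factor is small -/
theorem rest_core {la lb Oql Orl Rql Rrl Rqh Rrh κ s T : ℝ} (o1 : 0 < Oql) (o3 : 0 < Orl)
    (r1 : 1 ≤ Rql) (r2 : 1 ≤ Rqh) (r3 : 1 ≤ Rrl) (r4 : 1 ≤ Rrh) (_hs : 0 ≤ s) (hs1 : s ≤ 1 / 30)
    (hla : la = Oql * Rql) (hlb : lb = Orl * Rrl) (hκ : 1 ≤ κ)
    (hm : κ ^ (1 / 8 : ℝ) ≤ max (Rql * Rqh) (Rrl * Rrh))
    (hT : (la * lb) ^ (-(s / 2)) ≤ 4 ^ (s / 2) * T) (hT0 : 0 ≤ T) :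
    (Oql * Orl) ^ (-(s / 2)) * (Rql * Rrl) ^ (-(1 / 30) : ℝ) * (Rqh * Rrh) ^ (-(1 / 20) : ℝ) ≤
      4 * κ ^ (-(1 / 480) : ℝ) * T := by
  have hRL1 : 1 ≤ Rql * Rrl := one_le_mul_of_one_le_of_one_le r1 r3
  have hRH1 : 1 ≤ Rqh * Rrh := one_le_mul_of_one_le_of_one_le r2 r4
  have hRL : 0 < Rql * Rrl := by linarith
  have hRH : 0 < Rqh * Rrh := by linarith
  have hOL : 0 < Oql * Orl := mul_pos o1 o3
  have e1 : (Oql * Orl) ^ (-(s / 2)) = (la * lb) ^ (-(s / 2)) * (Rql * Rrl) ^ (s / 2) := by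
    have e2 : la * lb = (Oql * Orl) * (Rql * Rrl) := by
      rw [hla, hlb]
      ring
    rw [e2, Real.mul_rpow hOL.le hRL.le, mul_assoc, ← Real.rpow_add hRL, neg_add_cancel,
      Real.rpow_zero, mul_one]
  have e3 : (Rql * Rrl) ^ (s / 2) * (Rql * Rrl) ^ (-(1 / 30) : ℝ) ≤
      (Rql * Rrl) ^ (-(1 / 60) : ℝ) := by
    rw [← Real.rpow_add hRL]
    exact Real.rpow_le_rpow_of_exponent_le hRL1 (by linarith)
  have e4 : (Rqh * Rrh) ^ (-(1 / 20) : ℝ) ≤ (Rqh * Rrh) ^ (-(1 / 60) : ℝ) :=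
    Real.rpow_le_rpow_of_exponent_le hRH1 (by norm_num)
  have e5 : (Rql * Rrl) ^ (-(1 / 60) : ℝ) * (Rqh * Rrh) ^ (-(1 / 60) : ℝ) ≤
      κ ^ (-(1 / 480) : ℝ) := by
    rw [← Real.mul_rpow hRL.le hRH.le]
    have h1 : max (Rql * Rqh) (Rrl * Rrh) ≤ (Rql * Rrl) * (Rqh * Rrh) := by
      have a1 : 1 ≤ Rql * Rqh := one_le_mul_of_one_le_of_one_le r1 r2
      have a2 : 1 ≤ Rrl * Rrh := one_le_mul_of_one_le_of_one_le r3 r4
      have e : (Rql * Rrl) * (Rqh * Rrh) = (Rql * Rqh) * (Rrl * Rrh) := by ring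
      rw [e]
      refine max_le ?_ ?_
      · exact le_mul_of_one_le_right (by linarith) a2
      · exact le_mul_of_one_le_left (by linarith) a1
    have h2 : κ ^ (1 / 8 : ℝ) ≤ (Rql * Rrl) * (Rqh * Rrh) := hm.trans h1
    have h3 : 0 < κ ^ (1 / 8 : ℝ) := by positivity
    have h4 : κ ^ (-(1 / 480) : ℝ) = (κ ^ (1 / 8 : ℝ)) ^ (-(1 / 60) : ℝ) := by
      rw [← Real.rpow_mul (by linarith)]
      norm_num
    rw [h4]
    exact Real.rpow_le_rpow_of_nonpos h3 h2 (by norm_num)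
  have e6 : (4 : ℝ) ^ (s / 2) ≤ 4 := by
    calc (4 : ℝ) ^ (s / 2) ≤ (4 : ℝ) ^ (1 : ℝ) :=
          Real.rpow_le_rpow_of_exponent_le (by norm_num) (by linarith)
      _ = 4 := Real.rpow_one 4
  have hP1 : 0 ≤ (Rql * Rrl) ^ (s / 2) * (Rql * Rrl) ^ (-(1 / 30) : ℝ) := by positivity
  calc (Oql * Orl) ^ (-(s / 2)) * (Rql * Rrl) ^ (-(1 / 30) : ℝ) * (Rqh * Rrh) ^ (-(1 / 20) : ℝ)
      = (la * lb) ^ (-(s / 2)) * (((Rql * Rrl) ^ (s / 2) * (Rql * Rrl) ^ (-(1 / 30) : ℝ)) *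
          (Rqh * Rrh) ^ (-(1 / 20) : ℝ)) := by
        rw [e1]
        ring
    _ ≤ (4 ^ (s / 2) * T) * ((Rql * Rrl) ^ (-(1 / 60) : ℝ) * (Rqh * Rrh) ^ (-(1 / 60) : ℝ)) := by
        refine mul_le_mul hT ?_ (by positivity) (by positivity)
        exact mul_le_mul e3 e4 (by positivity) (by positivity)
    _ ≤ (4 * T) * κ ^ (-(1 / 480) : ℝ) := by
        refine mul_le_mul (mul_le_mul_of_nonneg_right e6 hT0) e5 (by positivity) (by positivity)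
    _ = _ := by ring

theorem pair_core {Sq Sr X Y wql wqh wrl wrh Oql Oqh Orl Orh Rql Rqh Rrl Rrh s κ T la lb ρq ρr : ℝ}
    (hX : 0 ≤ X) (hY : 0 ≤ Y) (h1 : 0 ≤ wql) (h2 : 0 ≤ wqh) (h3 : 0 ≤ wrl) (h4 : 0 ≤ wrh)
    (o1 : 0 < Oql) (o2 : 0 < Oqh) (o3 : 0 < Orl) (o4 : 0 < Orh) (r1 : 1 ≤ Rql) (r2 : 1 ≤ Rqh)
    (r3 : 1 ≤ Rrl) (r4 : 1 ≤ Rrh) (hSq : 0 ≤ Sq) (hSr : 0 ≤ Sr)
    (hS1 : Sq ≤ X * ((wql * wqh) * (Oql * Oqh)⁻¹) * (Rql * Rqh) ^ (-(9 / 10) : ℝ) * (wrl * wrh))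
    (hS2 : Sr ≤ Y * ((wrl * wrh) * (Orl * Orh)⁻¹) * (Rrl * Rrh) ^ (-(9 / 10) : ℝ) * (wql * wqh))
    (hρq : ρq = (wql * Oql ^ (-(1 - s))) * wrl * (Rql * Rrl) ^ (-(5 / 12) : ℝ))
    (hρr : ρr = (wrl * Orl ^ (-(1 - s))) * wql * (Rrl * Rql) ^ (-(5 / 12) : ℝ))
    (hs : 0 ≤ s) (hs1 : s ≤ 1 / 30) (hla : la = Oql * Rql) (hlb : lb = Orl * Rrl) (hκ : 1 ≤ κ)
    (hm : κ ^ (1 / 8 : ℝ) ≤ max (Rql * Rqh) (Rrl * Rrh))
    (hT : (la * lb) ^ (-(s / 2)) ≤ 4 ^ (s / 2) * T) (hT0 : 0 ≤ T) :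
    Sq ^ (1 / 2 : ℝ) * Sr ^ (1 / 2 : ℝ) ≤ (4 * κ ^ (-(1 / 480) : ℝ) * T) *
      ((wqh * wrh) * (Oqh * Orh) ^ (-(1 / 2) : ℝ) * (Rqh * Rrh) ^ (-(2 / 5) : ℝ) *
        ((X * ρq) ^ (1 / 2 : ℝ) * (Y * ρr) ^ (1 / 2 : ℝ))) := by
  have h5 := mul_le_mul (Real.rpow_le_rpow hSq hS1 (by norm_num : (0 : ℝ) ≤ 1 / 2))
    (Real.rpow_le_rpow hSr hS2 (by norm_num : (0 : ℝ) ≤ 1 / 2)) (Real.rpow_nonneg hSr _)
    (by positivity)
  rw [split_id (s := s) hX hY h1 h2 h3 h4 o1 o2 o3 o4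
    (by linarith) (by linarith) (by linarith) (by linarith), ← hρq, ← hρr] at h5
  have hrest := rest_core o1 o3 r1 r2 r3 r4 hs hs1 hla hlb hκ hm hT hT0
  have hq0 : 0 ≤ ρq := by
    rw [hρq]
    have : 0 ≤ Rql * Rrl := mul_nonneg (by linarith) (by linarith)
    positivity
  have hr0 : 0 ≤ ρr := by
    rw [hρr]
    have : 0 ≤ Rrl * Rql := mul_nonneg (by linarith) (by linarith)
    positivity
  have hRH : 0 ≤ Rqh * Rrh := mul_nonneg (by linarith) (by linarith)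
  exact h5.trans (mul_le_mul_of_nonneg_right hrest (by positivity))

theorem one_side {X om w Oi Rp od w' : ℝ} (hX : 0 ≤ X) (h1 : om ≤ w) (hom : 0 ≤ om)
    (hOi : 0 ≤ Oi) (hR : 0 ≤ Rp) (h2 : od ≤ w') (hod : 0 ≤ od) :
    X * (om * Oi) * Rp * od ≤ X * (w * Oi) * Rp * w' := by
  have hw : 0 ≤ w := hom.trans h1
  have e1 : om * Oi ≤ w * Oi := mul_le_mul_of_nonneg_right h1 hOi
  have e2 : X * (om * Oi) ≤ X * (w * Oi) := mul_le_mul_of_nonneg_left e1 hX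
  have e3 : X * (om * Oi) * Rp ≤ X * (w * Oi) * Rp := mul_le_mul_of_nonneg_right e2 hR
  exact mul_le_mul e3 h2 hod (by positivity)

theorem fin_core {K C S Tp P Q R Z κ' T' : ℝ} (hK : K ≤ C * (S * Tp)) (hC : 0 ≤ C) (hS : 0 ≤ S)
    (hTp : Tp ≤ 1) (h : S ≤ (4 * κ' * T') * (P * Q * R * Z)) :
    K ≤ C * 4 * κ' * T' * P * Q * R * Z := by
  have h1 : S * Tp ≤ S := mul_le_of_le_one_right hS hTp
  calc K ≤ C * (S * Tp) := hK
    _ ≤ C * ((4 * κ' * T') * (P * Q * R * Z)) := mul_le_mul_of_nonneg_left (h1.trans h) hC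
    _ = _ := by ring

variable {g : Cfg}

theorem TP_le1 {δ : ℕ → ℕ → ℝ} (hδ : Om δ) (x q r : ℕ) (n : ℤ) : TP g δ x q r n ≤ 1 := by
  classical
  unfold TP
  refine prod_le_one (fun p hp => ?_) fun p hp => ?_
  · exact (lc_bounds hδ q r n (Nat.prime_of_mem_primeFactors
      (mem_inter.1 (mem_filter.1 hp).1).1)).1
  · have hpp := Nat.prime_of_mem_primeFactors (mem_inter.1 (mem_filter.1 hp).1).1
    exact (lc_bounds hδ q r n hpp).2.1.trans (one_sub_dq_pos hδ q hpp).2.2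

/-- the omission probabilities at the omitted primes `≤ x` -/
noncomputable def loW (g : Cfg) (d : ℕ → ℕ → ℝ) (lam : ℝ) (x t B q a : ℕ) : ℝ :=
  ∏ p ∈ (UO g d t B q a).filter (fun p => p ≤ x), (lam * d q p)

/-- the omitted part at the primes `≤ x` -/
noncomputable def loO (g : Cfg) (d : ℕ → ℕ → ℝ) (x t B q a : ℕ) : ℕ :=
  ∏ p ∈ (UO g d t B q a).filter (fun p => p ≤ x), p ^ a.factorization p

section

variable {δ : ℕ → ℕ → ℝ} {lam s : ℝ} {x t B q r a b : ℕ}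

theorem loW_nonneg (hδ : Om δ) (hl : 0 ≤ lam) : 0 ≤ loW g δ lam x t B q a :=
  prod_nonneg fun p _ => mul_nonneg hl (hδ q p).1

theorem hiW_nonneg (hδ : Om δ) (hl : 0 ≤ lam) : 0 ≤ hiW g δ lam x t B q a :=
  prod_nonneg fun p _ => mul_nonneg hl (hδ q p).1

theorem loO_pos : 0 < loO g δ x t B q a :=
  prod_pos fun _ hp => pow_pos (UO_prime (mem_filter.1 hp).1).pos _

theorem hiO_pos : 0 < hiO g δ x t B q a :=
  prod_pos fun _ hp => pow_pos (UO_prime (mem_filter.1 hp).1).pos _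

/-- a product over the omitted primes, split at `x` -/
theorem UO_split (F : ℕ → ℝ) : ∏ p ∈ UO g δ t B q a, F p =
    (∏ p ∈ (UO g δ t B q a).filter (fun p => p ≤ x), F p) *
      ∏ p ∈ (UO g δ t B q a).filter (fun p => x < p), F p := by
  rw [← prod_filter_mul_prod_filter_not (UO g δ t B q a) (fun p => p ≤ x)]
  congr 1
  refine prod_congr ?_ fun _ _ => rfl
  ext p
  rw [mem_filter, mem_filter, not_le]

theorem omt_split : (omt g δ t B q a : ℝ) = (loO g δ x t B q a : ℝ) * (hiO g δ x t B q a : ℝ) := by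
  have h := UO_split (g := g) (δ := δ) (x := x) (t := t) (B := B) (q := q) (a := a)
    (fun p => ((p ^ a.factorization p : ℕ) : ℝ))
  rw [omt_eq]
  unfold pt loO hiO
  push_cast at h ⊢
  exact h

/-- the part `≤ x` of the omitted part -/
theorem lowp_omt : lowp x (omt g δ t B q a) = loO g δ x t B q a := by
  classical
  have hp : ∀ p ∈ UO g δ t B q a, p.Prime := fun p hp => UO_prime hp
  refine Nat.eq_of_factorization_eq (lowp_pos _ _).ne' loO_pos.ne' fun p => ?_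
  rw [lowp_fac, omt_eq, pt_fac hp]
  have h2 : loO g δ x t B q a = pt ((UO g δ t B q a).filter (fun p => p ≤ x)) a := rfl
  rw [h2, pt_fac fun p hp' => hp p (mem_filter.1 hp').1]
  by_cases h3 : p ≤ x
  · rw [if_pos h3]
    by_cases h4 : p ∈ UO g δ t B q a
    · rw [if_pos h4, if_pos (mem_filter.2 ⟨h4, h3⟩)]
    · rw [if_neg h4]
      exact (if_neg fun h5 => h4 (mem_filter.1 h5).1).symm
  · rw [if_neg h3]
    symm
    apply if_neg
    intro h5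
    exact h3 (mem_filter.1 h5).2

/-- the harm is at most `11 / 10` -/
theorem harm_le {p : ℕ} (h : 11 ≤ p) : (1 - 1 / (p : ℝ))⁻¹ ≤ 11 / 10 := by
  have h1 : (11 : ℝ) ≤ p := by exact_mod_cast h
  have h2 : 1 / (p : ℝ) ≤ 1 / 11 := one_div_le_one_div_of_le (by norm_num) h1
  rw [inv_le_comm₀ (by linarith) (by norm_num)]
  norm_num at h2 ⊢
  linarith

theorem omw_le_w (hδ : Om δ) (hlam : 11 / 10 ≤ lam) (ht : 11 ≤ t) :
    omw g δ t B q a ≤ loW g δ lam x t B q a * hiW g δ lam x t B q a := by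
  unfold loW hiW
  rw [← UO_split (F := fun p => lam * δ q p)]
  unfold omw
  refine prod_le_prod (fun p hp => mul_nonneg (zero_le_one.trans (one_le_inv_factor (UO_prime hp)))
    (hδ q p).1) fun p hp => ?_
  refine mul_le_mul_of_nonneg_right ((harm_le ?_).trans hlam) (hδ q p).1
  have := (mem_UO.1 hp).2.1
  omega

theorem omd_le_w (hδ : Om δ) (hlam : 11 / 10 ≤ lam) :
    omd g δ t B q a ≤ loW g δ lam x t B q a * hiW g δ lam x t B q a := by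
  unfold loW hiW
  rw [← UO_split (F := fun p => lam * δ q p)]
  unfold omd
  refine prod_le_prod (fun p _ => (hδ q p).1) fun p _ => ?_
  exact le_mul_of_one_le_left (hδ q p).1 (by linarith)

/-- the weight of the row -/
theorem rowW_eq : rowW g δ lam s x t B q r a b =
    (loW g δ lam x t B q a * (loO g δ x t B q a : ℝ) ^ (-(1 - s))) * loW g δ lam x t B r b *
      (((lowp x (rst g δ t B q a) : ℕ) : ℝ) * ((lowp x (rst g δ t B r b) : ℕ) : ℝ)) ^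
        (-(5 / 12) : ℝ) := by
  unfold rowW
  congr 1
  congr 1
  rw [prod_mul_distrib]
  unfold loW loO
  congr 1
  push_cast
  rw [← Real.finsetProd_rpow _ _ fun p _ => by positivity]

end

/-- the one-sided weight, split at the cut -/
theorem sW_le {δ : ℕ → ℕ → ℝ} (hδ : Om δ) {lam : ℝ} (hlam : 11 / 10 ≤ lam) {i t x B q r a b : ℕ}
    (ht : 11 ≤ t) (ha : 0 < a) : sW g δ t B i q r a b ≤ (f g q * Wt g i r) *
      ((loW g δ lam x t B q a * hiW g δ lam x t B q a) *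
        ((loO g δ x t B q a : ℝ) * (hiO g δ x t B q a : ℝ))⁻¹) *
      ((lowp x (rst g δ t B q a) : ℝ) * (rgh x (rst g δ t B q a) : ℝ)) ^ (-(9 / 10) : ℝ) *
      (loW g δ lam x t B r b * hiW g δ lam x t B r b) := by
  have hRq0 := rst_pos g δ t B q ha
  have eRq : (rst g δ t B q a : ℝ) = (lowp x (rst g δ t B q a) : ℝ) *
      (rgh x (rst g δ t B q a) : ℝ) := by exact_mod_cast (lowp_mul_rgh hRq0).symm
  have h1 := omw_le_w (g := g) (x := x) (B := B) (q := q) (a := a) hδ hlam ht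
  have h2 := omd_le_w (g := g) (x := x) (t := t) (B := B) (q := r) (a := b) hδ hlam
  have h3 := omw_nonneg (g := g) hδ t B q a
  have h4 := omd_nonneg (g := g) hδ t B r b
  have h5 : (0 : ℝ) ≤ ((loO g δ x t B q a : ℝ) * (hiO g δ x t B q a : ℝ))⁻¹ := by positivity
  have h6 : (0 : ℝ) ≤ ((lowp x (rst g δ t B q a) : ℝ) * (rgh x (rst g δ t B q a) : ℝ)) ^
      (-(9 / 10) : ℝ) := by positivity
  have h7 : 0 ≤ f g q * Wt g i r := mul_nonneg (f_nonneg g q) (Wt_nonneg i r)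
  have h8 := one_side h7 h1 h3 h5 h6 h2 h4
  have e : sW g δ t B i q r a b = f g q * Wt g i r * (omw g δ t B q a *
      ((loO g δ x t B q a : ℝ) * (hiO g δ x t B q a : ℝ))⁻¹) *
      ((lowp x (rst g δ t B q a) : ℝ) * (rgh x (rst g δ t B q a) : ℝ)) ^ (-(9 / 10) : ℝ) *
      omd g δ t B r b := by
    unfold sW
    rw [← omt_split (x := x), ← eRq]
  rw [e]
  exact h8

/-- **The bound of one pair, split at the cut `x`.** -/
theorem pair_split (hρ : Real.exp 1 ≤ g.K.P.ρ0 ^ (-g.K.P.c0)) (hJ : JsOK g.K g.Js)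
    (hX : g.Js ≤ g.X) (hV : g.V ⊆ Icc 1 (N g)) {δ : ℕ → ℕ → ℝ} (hδ : Om δ) {i t x q r : ℕ}
    {n : ℤ} {F G : ℚ} (h : PD g i t q r n F G) (hq : q ∈ V1 g) (hr : r ∈ V1 g)
    (hD : Dl g q r ≤ z g i) (_htx : t ≤ x) (hx : x ≤ z g i) {lam s κ : ℝ} (hlam : 11 / 10 ≤ lam)
    (hzs : 11 ≤ zs g) (hs : 0 ≤ s) (hs1 : s ≤ 1 / 30) (hκ : 1 ≤ κ)
    (hm : κ ^ (1 / 8 : ℝ) ≤ mrs g δ t (BB g i q r F G) i q r) {a b B : ℕ}
    (ha : a = rcof (z g i) (N g) (kc g q) q r) (hb : b = rcof (z g i) (N g) (kc g q) r q)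
    (hB : B = BB g i q r F G) :
    f g q * f g r / Dl g q r * Kd g δ q r n ≤ Real.exp 354 * 65536 * 4 *
      κ ^ (-(1 / 480) : ℝ) * (2 : ℝ) ^ (-(s / 2 * |((szx x r - szx x q : ℤ) : ℝ)|)) *
      (hiW g δ lam x t B q a * hiW g δ lam x t B r b) *
      ((hiO g δ x t B q a : ℝ) * (hiO g δ x t B r b : ℝ)) ^ (-(1 / 2) : ℝ) *
      ((rgh x (rst g δ t B q a) : ℝ) * (rgh x (rst g δ t B r b) : ℝ)) ^ (-(2 / 5) : ℝ) *
      ((f g q * Wt g i r * rowW g δ lam s x t B q r a b) ^ (1 / 2 : ℝ) *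
        (f g r * Wt g i q * rowW g δ lam s x t B r q b a) ^ (1 / 2 : ℝ)) := by
  have hz := zs_le_z hJ hX i
  have hc : Clean g (z g i) q r := h.ta.2.2.1
  obtain ⟨-, -, -, ha0, hb0⟩ := clean_cofac hV hz h.hq h.hr hc
  have hl0 : 0 ≤ lam := by linarith
  have ht11 : 11 ≤ t := hzs.trans h.zt
  have hgeo := h.term_geo hρ hJ hX hV hδ hq hr hD (θ := 1 / 2) (by norm_num) (by norm_num)
  have hTP := TP_le1 (g := g) hδ (z g i) q r n
  have hTP0 := TP_nonneg (g := g) hδ (z g i) q r n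
  have htilt := tilt_gap hV hx hz h.hq h.hr hc (s := s / 2) (by linarith)
  rw [← lowp_eq_inx ha0, ← lowp_eq_inx hb0] at htilt
  unfold mrs at hm
  rw [← ha, ← hb, ← hB] at hgeo
  rw [← ha, ← hb, ← hB] at hm
  rw [← ha, ← hb] at htilt
  rw [← ha] at ha0
  rw [← hb] at hb0
  have e12 : (1 : ℝ) - 1 / 2 = 1 / 2 := by norm_num
  rw [e12] at hgeo
  -- positivity
  have hfq := f_nonneg g q
  have hfr := f_nonneg g r
  have hWq := Wt_nonneg (g := g) i q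
  have hWr := Wt_nonneg (g := g) i r
  have w1 : 0 ≤ loW g δ lam x t B q a := loW_nonneg hδ hl0
  have w2 : 0 ≤ hiW g δ lam x t B q a := hiW_nonneg hδ hl0
  have w3 : 0 ≤ loW g δ lam x t B r b := loW_nonneg hδ hl0
  have w4 : 0 ≤ hiW g δ lam x t B r b := hiW_nonneg hδ hl0
  have o1 : (0 : ℝ) < loO g δ x t B q a := by exact_mod_cast loO_pos
  have o2 : (0 : ℝ) < hiO g δ x t B q a := by exact_mod_cast hiO_pos
  have o3 : (0 : ℝ) < loO g δ x t B r b := by exact_mod_cast loO_pos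
  have o4 : (0 : ℝ) < hiO g δ x t B r b := by exact_mod_cast hiO_pos
  have hRq0 := rst_pos g δ t B q ha0
  have hRr0 := rst_pos g δ t B r hb0
  have r1 : (1 : ℝ) ≤ lowp x (rst g δ t B q a) := by exact_mod_cast lowp_pos _ _
  have r2 : (1 : ℝ) ≤ rgh x (rst g δ t B q a) := by exact_mod_cast rgh_pos _ _
  have r3 : (1 : ℝ) ≤ lowp x (rst g δ t B r b) := by exact_mod_cast lowp_pos _ _
  have r4 : (1 : ℝ) ≤ rgh x (rst g δ t B r b) := by exact_mod_cast rgh_pos _ _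
  have eRq : (rst g δ t B q a : ℝ) = (lowp x (rst g δ t B q a) : ℝ) *
      (rgh x (rst g δ t B q a) : ℝ) := by exact_mod_cast (lowp_mul_rgh hRq0).symm
  have eRr : (rst g δ t B r b : ℝ) = (lowp x (rst g δ t B r b) : ℝ) *
      (rgh x (rst g δ t B r b) : ℝ) := by exact_mod_cast (lowp_mul_rgh hRr0).symm
  -- the two one-sided weights
  have hA := sW_le (g := g) (i := i) (x := x) (B := B) (q := q) (r := r) (b := b) hδ hlam ht11 ha0
  have hA' := sW_le (g := g) (i := i) (x := x) (B := B) (q := r) (r := q) (b := a) hδ hlam ht11 hb0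
  have hs1' := sW_nonneg (g := g) hδ t B i q r a b
  have hs2' := sW_nonneg (g := g) hδ t B i r q b a
  -- the remaining factor
  have hla : (lowp x a : ℝ) = (loO g δ x t B q a : ℝ) * (lowp x (rst g δ t B q a) : ℝ) := by
    have h6 := lowp_omt_rst (g := g) δ t B q (x := x) ha0
    rw [lowp_omt] at h6
    exact_mod_cast h6
  have hlb : (lowp x b : ℝ) = (loO g δ x t B r b : ℝ) * (lowp x (rst g δ t B r b) : ℝ) := by
    have h6 := lowp_omt_rst (g := g) δ t B r (x := x) hb0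
    rw [lowp_omt] at h6
    exact_mod_cast h6
  rw [eRq, eRr] at hm
  exact fin_core hgeo (by positivity)
    (mul_nonneg (Real.rpow_nonneg hs1' _) (Real.rpow_nonneg hs2' _)) hTP
    (pair_core (mul_nonneg hfq hWr) (mul_nonneg hfr hWq) w1 w2 w3 w4 o1 o2 o3 o4 r1 r2 r3 r4
      hs1' hs2' hA hA' rowW_eq rowW_eq hs hs1 hla hlb hκ hm htilt (by positivity))

end Vale.P028.SK
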