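import Vale.Agent.P028.H132.RowNumG
attribute [-instance] ProperSMul.toContinuousSMul IsTopologicalTorsor.toContinuousSMul IdemSemiring.toCanonicallyOrderedAdd IdemSemiring.toMulLeftMono IdemSemiring.toMulRightMono AddQuantale.instAddLeftMono AddQuantale.instAddRightMono Quantale.instMulLeftMono Quantale.instMulRightMono FiniteDimensional.rclike_to_real IsScalarTower.complexToReal FiniteDimensional.complexToReal

/-!
# The old row over the phases which do not pay: no link is needed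

In a phase of `x` which does not pay the mass is at most twice the number of deviations plus `3`,
counted from the beginning of the phase. The stages of such a phase are cut into classes with the
same number of deviations and the same integral part of the mass.
-/

namespace Vale.P028.SK

open Finset CF RN H669 RK

variable {g : Cfg}

section

variable {x : ℕ} {I : Finset ℕ} {Y : ℕ → Finset ℕ} {w : ℕ → ℕ → ℝ} {c1 a C₀ : ℝ}

open Classical in
/-- one phase of the old row, with bounds for the positions of the stages -/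
theorem OldI.phase_lohi (hJ : JsOK g.K g.Js) (hX : g.Js ≤ g.X) (hV : g.V ⊆ Icc 1 (N g)) {c : ℝ}
    (h1 : 0 < c1) (h1e : c1 * Real.exp 24 ≤ 1) (hc : 0 < c) (hc1 : c ≤ 1)
    (hz : 4 ≤ c1 * zs g) (hx : x ∈ g.V) (h : OldI g c1 x I Y w a C₀) {j : ℕ}
    (hj : j ∈ NwP g x) {lo e : ℕ} (he : e ≤ N g)
    (hlo : ∀ i ∈ I, InPh (NwP g x) j (N g - z g i) → lo ≤ N g - z g i ∧ N g - z g i ≤ e) {w₀ : ℝ}
    (hw : ∀ k, lo ≤ k → k ≤ e → w₀ ≤ RK.W (fun k => uw g x k = true) (muw g c1 x) k) :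
    ∑ i ∈ I.filter (fun i => InPh (NwP g x) j (N g - z g i)), rowf g c1 x Y w i ≤
      3 * Real.exp (3 * a) * C₀ * (7 / 4) * Real.exp (-w₀) := by
  have H := sys_base hJ hX hV h1 h1e hc hc1 hz (Subset.refl g.V) hx
  have e2 : (fun k => uw g x k = true) = dvw (fun _ => 0) (wo g x) := by
    funext k
    exact propext (uw_dvw x k)
  obtain ⟨h0, -, -, hnew, hpos⟩ := mem_NwP.1 hj
  set I' := I.filter (fun i => InPh (NwP g x) j (N g - z g i)) with hI'
  set P := I'.image (fun i => N g - z g i) with hP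
  have hPe : ∀ p ∈ P, lo ≤ p ∧ p ≤ e := by
    intro p hp
    obtain ⟨i, hi, rfl⟩ := mem_image.1 hp
    have h3 := (mem_filter.1 hi)
    exact hlo i h3.1 h3.2
  have hst : ∀ i ∈ I', i ∈ I ∧ Fs g x h0 i := fun i hi => by
    obtain ⟨h2, h3⟩ := mem_filter.1 hi
    exact ⟨h2, Fs_of_inPh hJ hX hV hx (h.st i h2).2.1 hj h3 (h.st i h2).2.2 hnew hpos⟩
  have hrow := phase_row H (σ := fun _ => 1) (fun _ => zero_le_one) (wo g x) (J := P)
    (lo := lo) (e := e) hPe he h.a_nonneg
    (fun p hp p' hp' hlt b hb1 hb2 => by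
      obtain ⟨i, hi, rfl⟩ := mem_image.1 hp
      obtain ⟨i2, hi2, rfl⟩ := mem_image.1 hp'
      have hii : i < i2 := by
        by_contra hcon
        have := z_anti g (show i2 ≤ i by omega)
        omega
      obtain ⟨k1, k2⟩ := hst i hi
      obtain ⟨k3, k4⟩ := hst i2 hi2
      have h3 := h.link i k1 i2 k3 hii
        (fun t ht ht' => k4.2.2.2 t (lt_of_le_of_lt k2.2.1 ht) ht') b hb1 hb2
      rw [e2] at h3
      exact h3)
    (G := GO g x I Y w j) (fun p v => h.GO_nonneg j p v) h.C0_nonneg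
    (fun e' _ z' => h.coup hJ hX hV hx hj e' _ _ fun p hp => by
      obtain ⟨-, q1, q2, -⟩ := mem_filter.1 hp
      exact ⟨q1, q2⟩)
    (w := w₀) (fun k k1 k2 => by
      have := hw k k1 k2
      rw [e2] at this
      exact this)
  have hD := Dm_one (π := wn g x) (wn_sum hx) (wo g x)
  have hbd : 3 * Real.exp (3 * a) * C₀ * Real.exp (-w₀) * Dm (wn g x) (fun _ => 1) (wo g x) ≤
      3 * Real.exp (3 * a) * C₀ * (7 / 4) * Real.exp (-w₀) := by
    have h3 := mul_le_mul_of_nonneg_left hD (mul_nonneg (mul_nonneg (mul_nonneg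
      (by norm_num : (0 : ℝ) ≤ 3) (Real.exp_pos (3 * a)).le) h.C0_nonneg) (Real.exp_pos (-w₀)).le)
    linarith
  refine le_trans ?_ (hrow.trans hbd)
  -- every stage
  have hone : ∀ i ∈ I', rowf g c1 x Y w i ≤
      Real.exp (-RK.W (dvw (fun _ => 0) (wo g x)) (muw g c1 x) (N g - z g i)) *
        cE (wn g x) (N g - z g i) (fun v => (∑ y ∈ (Y i).filter (fun y => hbw g i y x = v),
          w i y) * Real.exp (RK.W (dvw (fun _ => 0) v) (muw g c1 x) (N g - z g i))) (wo g x) := by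
    intro i hi
    obtain ⟨k1, k2⟩ := hst i hi
    unfold rowf
    rw [e2]
    refine mul_le_mul_of_nonneg_left ?_ (Real.exp_pos _).le
    have h3 := out_row_G (zs_le_z hJ hX i) hx (Y i) (h.sub i k1) (h.cell i k1) (h.nonneg i k1)
      (Φ := fun v => Real.exp (RK.W (dvw (fun _ => 0) v) (muw g c1 x) (N g - z g i)))
      (fun _ => (Real.exp_pos _).le)
    refine le_trans (le_of_eq (sum_congr rfl fun y hy => ?_)) h3
    rw [W_hbw (h.cell i k1 y hy) c1 le_rfl]
    ring
  refine (sum_le_sum hone).trans ?_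
  -- group the stages by their positions
  have hgr : ∀ p ∈ P, ∑ i ∈ I'.filter (fun i => N g - z g i = p),
      Real.exp (-RK.W (dvw (fun _ => 0) (wo g x)) (muw g c1 x) (N g - z g i)) *
        cE (wn g x) (N g - z g i) (fun v => (∑ y ∈ (Y i).filter (fun y => hbw g i y x = v),
          w i y) * Real.exp (RK.W (dvw (fun _ => 0) v) (muw g c1 x) (N g - z g i))) (wo g x) =
      Real.exp (-RK.W (dvw (fun _ => 0) (wo g x)) (muw g c1 x) p) *
        cE (wn g x) p (fun v => Real.exp (RK.W (dvw (fun _ => 0) v) (muw g c1 x) p) *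
          (GO g x I Y w j p v * (1 : ℝ) ^ 3)) (wo g x) := by
    intro p _
    have e3 : (fun v => Real.exp (RK.W (dvw (fun _ => 0) v) (muw g c1 x) p) *
        (GO g x I Y w j p v * (1 : ℝ) ^ 3)) =
        fun v => ∑ i ∈ I'.filter (fun i => N g - z g i = p),
          (∑ y ∈ (Y i).filter (fun y => hbw g i y x = v), w i y) *
            Real.exp (RK.W (dvw (fun _ => 0) v) (muw g c1 x) p) := by
      funext v
      rw [← sum_mul, one_pow, mul_one, mul_comm]
      congr 1
      unfold GO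
      rw [← sum_filter]
    rw [e3, cE_sum' (wn g x) p, mul_sum]
    refine sum_congr rfl fun i hi => ?_
    rw [(mem_filter.1 hi).2]
  rw [← sum_congr rfl hgr]
  refine le_of_eq ?_
  rw [sum_fiberwise_of_maps_to (fun i hi => mem_image_of_mem _ hi)]

open Classical in
/-- the data of a row over phases which do not pay -/
structure OldN564 (g : Cfg) (c1 : ℝ) (x : ℕ) (I : Finset ℕ) (Y : ℕ → Finset ℕ) (w : ℕ → ℕ → ℝ)
    (C₀ : ℝ) : Prop where
  st : ∀ i ∈ I, 1 ≤ i ∧ i ≤ nst g ∧ ∃ j, 1 ≤ j ∧ j ≤ i ∧ Nw g j x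
  sub : ∀ i ∈ I, Y i ⊆ g.V
  cell : ∀ i ∈ I, ∀ y ∈ Y i, y ∈ NT.cell g.V (f g) (thr g) (N g) (z g i) x
  nonneg : ∀ i ∈ I, ∀ y ∈ Y i, 0 ≤ w i y
  C0_nonneg : 0 ≤ C₀
  np : ∀ i ∈ I, ∀ h, Fs g x h i → ¬ Pyw g c1 x (N g - z g h)
  fib : ∀ h m m', ∑ i ∈ I.filter (fun i => Fs g x h i ∧ M g i x = m),
    ∑ y ∈ (Y i).filter (fun y => M g i y = m'), w i y ≤ C₀

open Classical in
/-- the number of deviations of `x` before the stage `i`, from the position `j` on -/
noncomputable def kyA (g : Cfg) (x j i : ℕ) : ℕ :=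
  ((Ico j (N g - z g i)).filter (fun k => uw g x k = true)).card

/-- the integral part of the mass of `x` before the stage `i`, from the position `j` on -/
noncomputable def kyB (g : Cfg) (c1 : ℝ) (x j i : ℕ) : ℕ :=
  ⌊RK.ms (muw g c1 x) j (N g - z g i)⌋₊

theorem nd_kyA (x j i : ℕ) :
    RK.nd (fun k => uw g x k = true) j (N g - z g i) = kyA g x j i := by
  classical
  unfold RK.nd kyA
  rw [card_filter]
  push_cast
  refine sum_congr rfl fun k _ => ?_
  by_cases hk : uw g x k = true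
  · simp [hk]
  · simp [hk]

open Classical in
/-- the stages of one class -/
theorem OldN564.cls (h1 : 0 ≤ c1) (h : OldN564 g c1 x I Y w C₀) (j a b : ℕ) :
    OldI g c1 x (I.filter (fun i => InPh (NwP g x) j (N g - z g i) ∧ kyA g x j i = a ∧
      kyB g c1 x j i = b)) Y w 1 C₀ where
  st := fun i hi => h.st i (mem_filter.1 hi).1
  sub := fun i hi => h.sub i (mem_filter.1 hi).1
  cell := fun i hi => h.cell i (mem_filter.1 hi).1
  nonneg := fun i hi => h.nonneg i (mem_filter.1 hi).1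
  a_nonneg := zero_le_one
  C0_nonneg := h.C0_nonneg
  link := fun i hi i2 hi2 _ _ b' hb1 hb2 => by
    have hμ : ∀ k, 0 ≤ muw g c1 x k := muw_nonneg h1 x
    obtain ⟨-, p1, -, p3⟩ := mem_filter.1 hi
    obtain ⟨-, q1, -, q3⟩ := mem_filter.1 hi2
    have e1 : RK.ms (muw g c1 x) j (N g - z g i2) =
        RK.ms (muw g c1 x) j (N g - z g i) + RK.ms (muw g c1 x) (N g - z g i) (N g - z g i2) :=
      ms_add p1.1 (hb1.trans hb2)
    have e2 : RK.ms (muw g c1 x) (N g - z g i) (N g - z g i2) =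
        RK.ms (muw g c1 x) (N g - z g i) b' + RK.ms (muw g c1 x) b' (N g - z g i2) :=
      ms_add hb1 hb2
    have e3 := ms_nonneg hμ b' (N g - z g i2)
    have e4 := nd_nonneg (dv := fun k => uw g x k = true) (N g - z g i) b'
    have f1 : (b : ℝ) ≤ RK.ms (muw g c1 x) j (N g - z g i) := by
      rw [← p3]
      exact Nat.floor_le (ms_nonneg hμ _ _)
    have f2 : RK.ms (muw g c1 x) j (N g - z g i2) < b + 1 := by
      rw [← q3]
      exact Nat.lt_floor_add_one _
    linarith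
  fib := fun h' m m' => by
    refine le_trans (sum_le_sum_of_subset_of_nonneg ?_ ?_) (h.fib h' m m')
    · intro i hi
      obtain ⟨k1, k2⟩ := mem_filter.1 hi
      exact mem_filter.2 ⟨(mem_filter.1 k1).1, k2⟩
    · intro i hi _
      exact sum_nonneg fun y hy => h.nonneg i (mem_filter.1 hi).1 y (mem_filter.1 hy).1

theorem OldN564.rowf_nonneg (h : OldN564 g c1 x I Y w C₀) {i : ℕ} (hi : i ∈ I) :
    0 ≤ rowf g c1 x Y w i :=
  mul_nonneg (Real.exp_pos _).le (sum_nonneg fun y hy => mul_nonneg (Wt_nonneg i y)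
    (mul_nonneg (Real.exp_pos _).le (h.nonneg i hi y hy)))

theorem exp_cls564 (a : ℕ) : (2 * (a : ℝ) + 4) * Real.exp (-(4 * a)) ≤ 4 * (1 / 2) ^ a := by
  have e0 : Real.exp (-(4 * (a : ℝ))) = Real.exp (-(3 * (a : ℝ))) * Real.exp (-(a : ℝ)) := by
    rw [← Real.exp_add]
    ring_nf
  have e1 : (a : ℝ) + 1 ≤ Real.exp a := Real.add_one_le_exp _
  have e2 : Real.exp (-(a : ℝ)) * Real.exp a = 1 := by
    rw [← Real.exp_add]
    simp
  have e3 : Real.exp (-(3 * (a : ℝ))) ≤ (1 / 2) ^ a := by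
    have h1 : Real.exp (-(3 * (a : ℝ))) = Real.exp (-3) ^ a := by
      rw [← Real.exp_nat_mul]
      ring_nf
    rw [h1]
    refine pow_le_pow_left₀ (Real.exp_pos _).le ?_ a
    have h2 : Real.exp (-3 : ℝ) ≤ Real.exp (-1) := Real.exp_le_exp.2 (by norm_num)
    have h3 : Real.exp (-1 : ℝ) ≤ 1 / 2 := by
      rw [Real.exp_neg, inv_eq_one_div]
      refine one_div_le_one_div_of_le (by norm_num) ?_
      have := Real.add_one_le_exp (1 : ℝ)
      linarith
    exact h2.trans h3
  have e4 : (0 : ℝ) < Real.exp (-(a : ℝ)) := Real.exp_pos _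
  have e5 : (0 : ℝ) ≤ a := Nat.cast_nonneg a
  have e6 : (2 * (a : ℝ) + 4) * Real.exp (-(a : ℝ)) ≤ 4 := by
    have : (2 * (a : ℝ) + 4) * Real.exp (-(a : ℝ)) ≤ 4 * Real.exp a * Real.exp (-(a : ℝ)) := by
      refine mul_le_mul_of_nonneg_right ?_ e4.le
      linarith
    refine this.trans (le_of_eq ?_)
    rw [mul_assoc, mul_comm (Real.exp (a : ℝ)), e2, mul_one]
  calc (2 * (a : ℝ) + 4) * Real.exp (-(4 * a)) =
        ((2 * (a : ℝ) + 4) * Real.exp (-(a : ℝ))) * Real.exp (-(3 * (a : ℝ))) := by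
        rw [e0]; ring
    _ ≤ 4 * (1 / 2) ^ a := mul_le_mul e6 e3 (Real.exp_pos _).le (by norm_num)

theorem sum_half_pow564 (n : ℕ) : ∑ a ∈ range n, (4 : ℝ) * (1 / 2) ^ a ≤ 8 := by
  rw [← mul_sum]
  have : ∑ a ∈ range n, ((1 : ℝ) / 2) ^ a ≤ 2 := by
    rw [geom_sum_eq (by norm_num)]
    have : (0 : ℝ) ≤ (1 / 2) ^ n := by positivity
    rw [div_le_iff_of_neg (by norm_num)]
    linarith
  linarith

open Classical in
/-- one class of one phase -/
theorem OldN564.one (hJ : JsOK g.K g.Js) (hX : g.Js ≤ g.X) (hV : g.V ⊆ Icc 1 (N g)) {c : ℝ}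
    (h1 : 0 < c1) (h1e : c1 * Real.exp 24 ≤ 1) (hc : 0 < c) (hc1 : c ≤ 1)
    (hz : 4 ≤ c1 * zs g) (hx : x ∈ g.V) (h : OldN564 g c1 x I Y w C₀) {j : ℕ}
    (hj : j ∈ NwP g x) (hnp : ¬ Pyw g c1 x j) (a b : ℕ) :
    ∑ i ∈ I.filter (fun i => InPh (NwP g x) j (N g - z g i) ∧ kyA g x j i = a ∧
      kyB g c1 x j i = b), rowf g c1 x Y w i ≤
      3 * Real.exp 3 * C₀ * (7 / 4) *
        Real.exp (-(RK.W (fun k => uw g x k = true) (muw g c1 x) j + 4 * a - 3)) := by
  have hμ : ∀ k, 0 ≤ muw g c1 x k := muw_nonneg h1.le x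
  have hPos := Pos_w hJ hX hV h1 (by linarith) hx
  set I' := I.filter (fun i => InPh (NwP g x) j (N g - z g i) ∧ kyA g x j i = a ∧
      kyB g c1 x j i = b) with hI'
  rcases I'.eq_empty_or_nonempty with hem | hne
  · rw [hem, sum_empty]
    have := h.C0_nonneg
    positivity
  · have hne' : (I'.image (fun i => N g - z g i)).Nonempty := hne.image _
    set lo := (I'.image (fun i => N g - z g i)).min' hne' with hlo
    set hi0 := (I'.image (fun i => N g - z g i)).max' hne' with hhi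
    have hlm : lo ∈ I'.image (fun i => N g - z g i) := min'_mem _ _
    have hhm : hi0 ∈ I'.image (fun i => N g - z g i) := max'_mem _ _
    obtain ⟨i0, hi0m, hi0e⟩ := mem_image.1 hlm
    obtain ⟨i1, hi1m, hi1e⟩ := mem_image.1 hhm
    obtain ⟨-, q1, q2, -⟩ := mem_filter.1 hi0m
    obtain ⟨-, r1, -, -⟩ := mem_filter.1 hi1m
    have hpe : hi0 ≤ nx (NwP g x) (N g) j := by
      rw [← hi1e]
      exact r1.le_nx (Nat.sub_le _ _)
    have hjl : j ≤ lo := by
      rw [← hi0e]
      exact q1.1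
    have key := (h.cls h1.le j a b).phase_lohi hJ hX hV h1 h1e hc hc1 hz hx hj (lo := lo)
      (e := hi0) (hpe.trans (nx_le j)) (fun i hi _ =>
        ⟨min'_le _ _ (mem_image_of_mem (fun i => N g - z g i) hi),
          le_max' _ _ (mem_image_of_mem (fun i => N g - z g i) hi)⟩)
      (w₀ := RK.W (fun k => uw g x k = true) (muw g c1 x) j + 4 * a - 3)
      (fun k k1 k2 => by
        have g1 := hPos.np j hj hnp k (hjl.trans k1) (k2.trans hpe)
        have g2 := W_lower (dv := fun k => uw g x k = true) hμ (hjl.trans k1)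
        have g3 : RK.nd (fun k => uw g x k = true) j k =
            RK.nd (fun k => uw g x k = true) j lo + RK.nd (fun k => uw g x k = true) lo k :=
          nd_add hjl k1
        have g4 := nd_nonneg (dv := fun k => uw g x k = true) lo k
        have g5 : RK.nd (fun k => uw g x k = true) j lo = a := by
          rw [← hi0e, nd_kyA, q2]
        rw [g5] at g3
        linarith)
    have e1 : (I.filter (fun i => InPh (NwP g x) j (N g - z g i) ∧ kyA g x j i = a ∧
        kyB g c1 x j i = b)).filter (fun i => InPh (NwP g x) j (N g - z g i)) = I' := by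
      rw [filter_filter, hI']
      refine filter_congr fun i _ => ?_
      tauto
    rw [e1] at key
    refine key.trans (le_of_eq ?_)
    norm_num

open Classical in
/-- **one phase which does not pay, of the old row in numbers**: no link is needed -/
theorem OldN564.phase (hJ : JsOK g.K g.Js) (hX : g.Js ≤ g.X) (hV : g.V ⊆ Icc 1 (N g)) {c : ℝ}
    (h1 : 0 < c1) (h1e : c1 * Real.exp 24 ≤ 1) (hc : 0 < c) (hc1 : c ≤ 1)
    (hz : 4 ≤ c1 * zs g) (hx : x ∈ g.V) (h : OldN564 g c1 x I Y w C₀) {j : ℕ}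
    (hj : j ∈ NwP g x) (hnp : ¬ Pyw g c1 x j) :
    ∑ i ∈ I.filter (fun i => InPh (NwP g x) j (N g - z g i)), rowf g c1 x Y w i ≤
      42 * Real.exp 6 * C₀ *
        Real.exp (-RK.W (fun k => uw g x k = true) (muw g c1 x) j) := by
  have hμ : ∀ k, 0 ≤ muw g c1 x k := muw_nonneg h1.le x
  have hPos := Pos_w hJ hX hV h1 (by linarith) hx
  have hC0 := h.C0_nonneg
  set W0 := RK.W (fun k => uw g x k = true) (muw g c1 x) j with hW0
  set J := I.filter (fun i => InPh (NwP g x) j (N g - z g i)) with hJd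
  have hA : ∀ i ∈ J, kyA g x j i ∈ range (N g + 1) := by
    intro i _
    refine mem_range.2 (Nat.lt_succ_of_le ?_)
    unfold kyA
    refine (card_filter_le _ _).trans ?_
    rw [Nat.card_Ico]
    omega
  rw [← sum_fiberwise_of_maps_to hA]
  have hB : ∀ a ∈ range (N g + 1), ∑ i ∈ J.filter (fun i => kyA g x j i = a),
      rowf g c1 x Y w i ≤ 3 * Real.exp 6 * C₀ * (7 / 4) * Real.exp (-W0) *
        (4 * (1 / 2) ^ a) := by
    intro a _
    have hBm : ∀ i ∈ J.filter (fun i => kyA g x j i = a),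
        kyB g c1 x j i ∈ range (2 * a + 4) := by
      intro i hi
      obtain ⟨k1, k2⟩ := mem_filter.1 hi
      obtain ⟨k3, k4⟩ := mem_filter.1 k1
      have g1 := hPos.np j hj hnp (N g - z g i) k4.1 (k4.le_nx (Nat.sub_le _ _))
      rw [nd_kyA, k2] at g1
      refine mem_range.2 ?_
      unfold kyB
      refine (Nat.floor_lt (ms_nonneg hμ _ _)).2 ?_
      push_cast
      linarith
    rw [← sum_fiberwise_of_maps_to hBm]
    have hone : ∀ b ∈ range (2 * a + 4), ∑ i ∈ (J.filter (fun i => kyA g x j i = a)).filter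
        (fun i => kyB g c1 x j i = b), rowf g c1 x Y w i ≤
        3 * Real.exp 3 * C₀ * (7 / 4) * Real.exp (-(W0 + 4 * a - 3)) := by
      intro b _
      have e1 : (J.filter (fun i => kyA g x j i = a)).filter (fun i => kyB g c1 x j i = b) =
          I.filter (fun i => InPh (NwP g x) j (N g - z g i) ∧ kyA g x j i = a ∧
            kyB g c1 x j i = b) := by
        ext i
        simp only [hJd, mem_filter]
        tauto
      rw [e1]
      exact h.one hJ hX hV h1 h1e hc hc1 hz hx hj hnp a b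
    refine (sum_le_sum hone).trans ?_
    rw [sum_const, card_range, nsmul_eq_mul]
    have e2 : Real.exp (-(W0 + 4 * (a : ℝ) - 3)) =
        Real.exp (-W0) * Real.exp (-(4 * (a : ℝ))) * Real.exp 3 := by
      rw [← Real.exp_add, ← Real.exp_add]
      ring_nf
    have e3 : Real.exp (6 : ℝ) = Real.exp 3 * Real.exp 3 := by
      rw [← Real.exp_add]
      norm_num
    have e4 := exp_cls564 a
    rw [e2, e3]
    push_cast
    have e5 : (0 : ℝ) ≤ 3 * (Real.exp 3 * Real.exp 3) * C₀ * (7 / 4) * Real.exp (-W0) := by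
      positivity
    have e6 := mul_le_mul_of_nonneg_left e4 e5
    refine le_trans (le_of_eq ?_) e6
    ring
  refine (sum_le_sum hB).trans ?_
  rw [← mul_sum]
  have e5 : (0 : ℝ) ≤ 3 * Real.exp 6 * C₀ * (7 / 4) * Real.exp (-W0) := by positivity
  refine (mul_le_mul_of_nonneg_left (sum_half_pow564 _) e5).trans (le_of_eq ?_)
  ring

end

open Classical in
/-- **THE OLD ROW OVER THE PHASES WHICH DO NOT PAY**, families -/
theorem old_row_np_fam564 (hJ : JsOK g.K g.Js) (hX : g.Js ≤ g.X) (hV : g.V ⊆ Icc 1 (N g))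
    {c1 c : ℝ} (h1 : 0 < c1) (h1e : c1 * Real.exp 24 ≤ 1) (hc : 0 < c) (hc1 : c ≤ 1)
    (hz : 4 ≤ c1 * zs g) {x : ℕ} (hx : x ∈ g.V) {ι : Type*} (AA : Finset ι) {I : ι → Finset ℕ}
    {Y : ι → ℕ → Finset ℕ} {w : ι → ℕ → ℕ → ℝ} {C₀ : ℝ}
    (h : ∀ α ∈ AA, OldN564 g c1 x (I α) (Y α) (w α) C₀) {lam : ι → ℝ} {Lam : ℝ}
    (hlam : ∀ α ∈ AA, 0 ≤ lam α) (hC0 : 0 ≤ C₀) (hLam : 0 ≤ Lam)
    (hsum : ∀ k, 1 ≤ k → k ≤ nst g → Nw g k x →
      ∑ α ∈ AA.filter (fun α => ∃ i ∈ I α, Fs g x k i), lam α ≤ Lam) :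
    ∑ α ∈ AA, lam α * ∑ i ∈ I α, Vp (c * c1 / 8) (Pyw g c1 x) (NwP g x) (N g - z g i) *
      (Real.exp (-RK.W (fun k => uw g x k = true) (muw g c1 x) (N g - z g i)) *
        ∑ y ∈ Y α i, Wt g i y *
          (Real.exp (RK.W (fun k => uw g y k = true) (muw g c1 y) (N g - z g i)) * w α i y)) ≤
      168 * Real.exp 6 * C₀ * Lam / (c * c1 / 8) := by
  have H := sys_base hJ hX hV h1 h1e hc hc1 hz (Subset.refl g.V) hx
  have hκ0 := H.κ_pos
  have hκ1 := H.κ_le
  have hP := Pos_w hJ hX hV h1 (by linarith) hx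
  have hμ : ∀ k, 0 ≤ muw g c1 x k := muw_nonneg h1.le x
  set κ := c * c1 / 8 with hκ
  have hV0 : ∀ p, 0 ≤ Vp κ (Pyw g c1 x) (NwP g x) p := fun p => (Vp_bounds hκ0.le hκ1 p).1
  set W0 := RK.W (fun k => uw g x k = true) (muw g c1 x) with hW0
  set F : ℕ → ℝ := fun j => ∑ α ∈ AA, lam α *
    ∑ i ∈ (I α).filter (fun i => InPh (NwP g x) j (N g - z g i)), rowf g c1 x (Y α) (w α) i
    with hF
  have hle : ∑ α ∈ AA, lam α * ∑ i ∈ I α, Vp κ (Pyw g c1 x) (NwP g x) (N g - z g i) *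
      rowf g c1 x (Y α) (w α) i ≤ ∑ j ∈ NwP g x, F j * Vp κ (Pyw g c1 x) (NwP g x) j := by
    have e1 : ∑ j ∈ NwP g x, F j * Vp κ (Pyw g c1 x) (NwP g x) j =
        ∑ α ∈ AA, lam α * ∑ j ∈ NwP g x,
          ∑ i ∈ (I α).filter (fun i => InPh (NwP g x) j (N g - z g i)),
            Vp κ (Pyw g c1 x) (NwP g x) (N g - z g i) * rowf g c1 x (Y α) (w α) i := by
      rw [hF]
      simp only [sum_mul]
      rw [sum_comm]
      refine sum_congr rfl fun α _ => ?_
      rw [mul_sum]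
      refine sum_congr rfl fun j _ => ?_
      rw [mul_assoc, sum_mul]
      congr 1
      refine sum_congr rfl fun i hi => ?_
      rw [Vp_of_inPh (mem_filter.1 hi).2]
      ring
    rw [e1]
    refine sum_le_sum fun α hα => mul_le_mul_of_nonneg_left ?_ (hlam α hα)
    have hf0 : ∀ i ∈ I α, 0 ≤ Vp κ (Pyw g c1 x) (NwP g x) (N g - z g i) *
        rowf g c1 x (Y α) (w α) i := fun i hi => mul_nonneg (hV0 _) ((h α hα).rowf_nonneg hi)
    have e2 : ∑ j ∈ NwP g x, ∑ i ∈ (I α).filter (fun i => InPh (NwP g x) j (N g - z g i)),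
        Vp κ (Pyw g c1 x) (NwP g x) (N g - z g i) * rowf g c1 x (Y α) (w α) i =
        ∑ i ∈ I α, ∑ j ∈ NwP g x, if InPh (NwP g x) j (N g - z g i) then
          Vp κ (Pyw g c1 x) (NwP g x) (N g - z g i) * rowf g c1 x (Y α) (w α) i else 0 := by
      rw [sum_comm]
      refine sum_congr rfl fun j _ => ?_
      rw [sum_filter]
    rw [e2]
    refine sum_le_sum fun i hi => ?_
    obtain ⟨k, hk⟩ := exists_Fs ((h α hα).st i hi).2.2
    have hk1 := hk.mem_NwP ((h α hα).st i hi).2.1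
    have hk2 := hk.inPh hJ hX
    refine le_trans (le_of_eq ?_) (single_le_sum (f := fun j =>
      if InPh (NwP g x) j (N g - z g i) then
        Vp κ (Pyw g c1 x) (NwP g x) (N g - z g i) * rowf g c1 x (Y α) (w α) i else 0)
      (fun j _ => by
        split_ifs
        · exact hf0 i hi
        · exact le_rfl) hk1)
    rw [if_pos hk2]
  set A := 42 * Real.exp 6 * C₀ * Lam with hA
  have hA0 : 0 ≤ A := by positivity
  -- one phase
  have hph : ∀ j ∈ NwP g x, F j ≤ if Pyw g c1 x j then 0 else A * Real.exp (-W0 j) := by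
    intro j hj
    obtain ⟨k, hk1, hk2, hnew, hpos⟩ := mem_NwP.1 hj
    by_cases hpay : Pyw g c1 x j
    · rw [if_pos hpay, hF]
      refine le_of_eq (sum_eq_zero fun α hα => ?_)
      have h5 : (I α).filter (fun i => InPh (NwP g x) j (N g - z g i)) = ∅ := by
        refine filter_eq_empty_iff.2 fun i hi hip => ?_
        have hfs := Fs_of_inPh hJ hX hV hx ((h α hα).st i hi).2.1 hj hip ((h α hα).st i hi).2.2
          hnew hpos
        have := (h α hα).np i hi k hfs
        rw [hpos] at this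
        exact this hpay
      rw [h5, sum_empty, mul_zero]
    · rw [if_neg hpay]
      have hB0 : 0 ≤ 42 * Real.exp 6 * C₀ * Real.exp (-W0 j) := by positivity
      have h3 : F j ≤ ∑ α ∈ AA.filter (fun α => ∃ i ∈ I α, Fs g x k i),
          lam α * (42 * Real.exp 6 * C₀ * Real.exp (-W0 j)) := by
        rw [hF, sum_filter]
        refine sum_le_sum fun α hα => ?_
        have h4 := (h α hα).phase hJ hX hV h1 h1e hc hc1 hz hx hj hpay
        split_ifs with hex
        · exact mul_le_mul_of_nonneg_left h4 (hlam α hα)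
        · have h5 : (I α).filter (fun i => InPh (NwP g x) j (N g - z g i)) = ∅ := by
            refine filter_eq_empty_iff.2 fun i hi hip => hex ⟨i, hi, ?_⟩
            exact Fs_of_inPh hJ hX hV hx ((h α hα).st i hi).2.1 hj hip ((h α hα).st i hi).2.2
              hnew hpos
          rw [h5, sum_empty, mul_zero]
      refine h3.trans ?_
      rw [← sum_mul]
      have h6 := mul_le_mul_of_nonneg_right (hsum k hk1 hk2 hnew) hB0
      refine h6.trans (le_of_eq ?_)
      rw [hA]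
      ring
  have h7 := row_np (Pay := Pyw g c1 x) hμ hκ0 hκ1 hP
  refine hle.trans ?_
  have h8 : ∑ j ∈ NwP g x, F j * Vp κ (Pyw g c1 x) (NwP g x) j ≤
      A * ∑ j ∈ (NwP g x).filter (fun j => ¬ Pyw g c1 x j),
        Real.exp (-W0 j) * Vt κ (Pyw g c1 x) (NwP g x) j := by
    rw [sum_filter, mul_sum]
    refine sum_le_sum fun j hj => ?_
    refine (mul_le_mul_of_nonneg_right (hph j hj) (hV0 j)).trans (le_of_eq ?_)
    by_cases hpay : Pyw g c1 x j
    · rw [if_pos hpay, if_neg (not_not.2 hpay)]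
      ring
    · rw [if_neg hpay, if_pos hpay, Vt_eq_of_not hpay]
      ring
  refine h8.trans ((mul_le_mul_of_nonneg_left h7 hA0).trans (le_of_eq ?_))
  rw [hA]
  ring

/-- **THE OLD ROW OVER THE PHASES WHICH DO NOT PAY**, one family -/
theorem old_row_np564 (hJ : JsOK g.K g.Js) (hX : g.Js ≤ g.X) (hV : g.V ⊆ Icc 1 (N g)) {c1 c : ℝ}
    (h1 : 0 < c1) (h1e : c1 * Real.exp 24 ≤ 1) (hc : 0 < c) (hc1 : c ≤ 1)
    (hz : 4 ≤ c1 * zs g) {x : ℕ} (hx : x ∈ g.V) {I : Finset ℕ}
    {Y : ℕ → Finset ℕ} {w : ℕ → ℕ → ℝ} {C₀ : ℝ} (h : OldN564 g c1 x I Y w C₀) :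
    ∑ i ∈ I, Vp (c * c1 / 8) (Pyw g c1 x) (NwP g x) (N g - z g i) *
      (Real.exp (-RK.W (fun k => uw g x k = true) (muw g c1 x) (N g - z g i)) *
        ∑ y ∈ Y i, Wt g i y *
          (Real.exp (RK.W (fun k => uw g y k = true) (muw g c1 y) (N g - z g i)) * w i y)) ≤
      168 * Real.exp 6 * C₀ / (c * c1 / 8) := by
  classical
  have h2 := old_row_np_fam564 hJ hX hV h1 h1e hc hc1 hz hx (ι := Unit) {()} (I := fun _ => I)
    (Y := fun _ => Y) (w := fun _ => w) (fun _ _ => h) (lam := fun _ => 1) (Lam := 1)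
    (fun _ _ => zero_le_one) h.C0_nonneg zero_le_one (fun k _ _ _ => by
      refine (sum_le_sum_of_subset_of_nonneg (filter_subset _ _) fun _ _ _ =>
        zero_le_one).trans ?_
      simp)
  rw [sum_singleton, one_mul, mul_one] at h2
  exact h2

end Vale.P028.SK
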