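import Vale.Agent.P028.MathlibUsed
import Vale.Agent.P028.R103.TSDefs
import Vale.Agent.P028.H676.Agr
attribute [-instance] ProperSMul.toContinuousSMul IsTopologicalTorsor.toContinuousSMul IdemSemiring.toCanonicallyOrderedAdd IdemSemiring.toMulLeftMono IdemSemiring.toMulRightMono AddQuantale.instAddLeftMono AddQuantale.instAddRightMono Quantale.instMulLeftMono Quantale.instMulRightMono FiniteDimensional.rclike_to_real IsScalarTower.complexToReal FiniteDimensional.complexToReal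

/-!
# Class TS: the gain of a modulus in terms of its word
-/

namespace Vale.P028.SK

open Finset CF RN

variable {g : Cfg}

/-- the gain of a modulus at the primes `≤ z j`, with full gain at the places in `[ps j, x)`, is at
most the gain of the non-deviating places in `[ps j, x)` times the gain of the word after `b` -/
theorem TFu_le {S : Finset ℕ} {δ : ℕ → ℕ → ℝ} {c κ A : ℝ} {mu : ℕ → ℕ → ℝ}
    {Cp : ℕ → Finset ℕ} {Pay : ℕ → ℕ → Prop} (D : DSys g S δ c κ A mu Cp Pay) (hδ : Om δ)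
    (hV : g.V ⊆ Icc 1 (N g)) (hS : S ⊆ g.V) {q j x b : ℕ} (hq : q ∈ S) (hxb : x ≤ b)
    (hab : ps g j ≤ b) :
    TFu g δ (z g j) q (fun p => ps g j ≤ N g - p ∧ N g - p < x) ≤
      RK.UU (dvn g q) (mu q) c (ps g j) x * WG g δ q b := by
  classical
  have hqV := hS hq
  have hq1 := mem_Icc.1 (hV hqV)
  set K1 := (Ico (ps g j) x).filter
    (fun k => (Qc g q).factorization (N g - k) ≠ 0 ∧ uw g q k = false) with hK1
  set K2 := (Ico b (N g)).filter
    (fun k => (Qc g q).factorization (N g - k) ≠ 0 ∧ uw g q k = false) with hK2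
  have hm1 : ∀ k ∈ K1, (N g - k).Prime ∧ zs g < N g - k ∧ N g - k ∣ q ∧ k < N g ∧ ps g j ≤ k ∧
      k < x := by
    intro k hk
    obtain ⟨h1, h2, h3⟩ := mem_filter.1 hk
    obtain ⟨h4, h5⟩ := mem_Ico.1 h1
    have h6 : k < N g := by
      have := (mem_PO.1 (Qc_prime h2).1).1.pos
      omega
    obtain ⟨a1, a2, a3⟩ := dvd_of_uw hqV h6 h2 h3
    exact ⟨a1, a2, a3, h6, h4, h5⟩
  have hm2 : ∀ k ∈ K2, (N g - k).Prime ∧ zs g < N g - k ∧ N g - k ∣ q ∧ k < N g ∧ b ≤ k := by
    intro k hk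
    obtain ⟨h1, h2, h3⟩ := mem_filter.1 hk
    obtain ⟨h4, h5⟩ := mem_Ico.1 h1
    obtain ⟨a1, a2, a3⟩ := dvd_of_uw hqV h5 h2 h3
    exact ⟨a1, a2, a3, h5, h4⟩
  have hdis : Disjoint K1 K2 := by
    rw [disjoint_left]
    intro k h1 h2
    have := (hm1 k h1).2.2.2.2.2
    have := (hm2 k h2).2.2.2.2
    omega
  have hlt : ∀ k ∈ K1 ∪ K2, k < N g := by
    intro k hk
    rcases mem_union.1 hk with h | h
    · exact (hm1 k h).2.2.2.1
    · exact (hm2 k h).2.2.2.1
  have hinj : Set.InjOn (fun k => N g - k) (K1 ∪ K2 : Finset ℕ) := by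
    intro k hk l hl he
    have h1 := hlt k (mem_coe.1 hk)
    have h2 := hlt l (mem_coe.1 hl)
    simp only at he
    omega
  obtain ⟨w, hwd⟩ : ∃ w : ℕ → ℝ, w = fun p => if (ps g j ≤ N g - p ∧ N g - p < x) then
    1 - 1 / (p : ℝ) else 1 - dq g δ q p / p := ⟨_, rfl⟩
  have hsub : (K1 ∪ K2).image (fun k => N g - k) ⊆
      q.primeFactors.filter (fun p => zs g < p ∧ p ≤ z g j) := by
    intro p hp
    obtain ⟨k, hk, rfl⟩ := mem_image.1 hp
    have hps : ps g j = N g - z g j := rfl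
    rcases mem_union.1 hk with h | h
    · obtain ⟨a1, a2, a3, a4, a5, a6⟩ := hm1 k h
      exact mem_filter.2 ⟨Nat.mem_primeFactors.2 ⟨a1, a3, by omega⟩, a2, by omega⟩
    · obtain ⟨a1, a2, a3, a4, a5⟩ := hm2 k h
      exact mem_filter.2 ⟨Nat.mem_primeFactors.2 ⟨a1, a3, by omega⟩, a2, by omega⟩
  have hw0 : ∀ p : ℕ, p.Prime → 0 ≤ w p ∧ w p ≤ 1 := by
    intro p hp
    have h1 := one_sub_dq_pos (g := g) hδ q hp
    have h2 := factor_pos hp
    simp only [hwd]
    split_ifs
    · exact ⟨h2.le, factor_le_one⟩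
    · exact ⟨h1.1.le, h1.2.2⟩
  have h1 : TFu g δ (z g j) q (fun p => ps g j ≤ N g - p ∧ N g - p < x) ≤
      ∏ p ∈ (K1 ∪ K2).image (fun k => N g - k), w p := by
    have e1 : TFu g δ (z g j) q (fun p => ps g j ≤ N g - p ∧ N g - p < x) =
        ∏ p ∈ q.primeFactors.filter (fun p => zs g < p ∧ p ≤ z g j), w p := by
      unfold TFu
      refine prod_congr rfl fun p _ => ?_
      rw [hwd]
      by_cases h : ps g j ≤ N g - p ∧ N g - p < x
      · rw [if_pos h]
        exact (if_pos h).symm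
      · rw [if_neg h]
        exact (if_neg h).symm
    rw [e1, ← prod_sdiff hsub]
    have b1 : 0 ≤ ∏ p ∈ (K1 ∪ K2).image (fun k => N g - k), w p :=
      prod_nonneg fun p hp =>
        (hw0 p (Nat.prime_of_mem_primeFactors (mem_filter.1 (hsub hp)).1)).1
    have b2 : ∏ p ∈ q.primeFactors.filter (fun p => zs g < p ∧ p ≤ z g j) \
        (K1 ∪ K2).image (fun k => N g - k), w p ≤ 1 := by
      refine prod_le_one (fun p hp => ?_) fun p hp => ?_
      · exact (hw0 p (Nat.prime_of_mem_primeFactors (mem_filter.1 (mem_sdiff.1 hp).1).1)).1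
      · exact (hw0 p (Nat.prime_of_mem_primeFactors (mem_filter.1 (mem_sdiff.1 hp).1).1)).2
    exact mul_le_of_le_one_left b1 b2
  rw [prod_image hinj, prod_union hdis] at h1
  have h2 : ∏ k ∈ K2, w (N g - k) = WG g δ q b := by
    unfold WG
    refine prod_congr rfl fun k hk => ?_
    obtain ⟨a1, a2, a3, a4, a5⟩ := hm2 k hk
    have e : N g - (N g - k) = k := by omega
    simp only [hwd, e]
    rw [if_neg (by omega)]
  have h3 : ∏ k ∈ K1, w (N g - k) ≤ RK.UU (dvn g q) (mu q) c (ps g j) x := by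
    unfold RK.UU
    rw [hK1, prod_filter]
    refine prod_le_prod (fun k hk => ?_) fun k hk => ?_
    · split_ifs with h
      · exact (hw0 _ (hm1 k (mem_filter.2 ⟨hk, h⟩)).1).1
      · exact zero_le_one
    · have hmh := D.mu_hw q hq k
      split_ifs with h h6 h6
      · exact (hw0 _ (hm1 k (mem_filter.2 ⟨hk, h⟩)).1).2
      · obtain ⟨a1, a2, a3, a4, a5, a6⟩ := hm1 k (mem_filter.2 ⟨hk, h⟩)
        have e : N g - (N g - k) = k := by omega
        simp only [hwd, e]
        rw [if_pos ⟨a5, a6⟩]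
        unfold hw at hmh
        rw [if_pos h.1] at hmh
        linarith
      · exact le_rfl
      · have h7 : (Qc g q).factorization (N g - k) = 0 := by
          by_contra h8
          refine h ⟨h8, ?_⟩
          by_contra h9
          exact h6 ((Bool.not_eq_false _).mp h9)
        unfold hw at hmh
        rw [if_neg (not_not.2 h7)] at hmh
        linarith
  rw [h2] at h1
  exact h1.trans (mul_le_mul_of_nonneg_right h3 (WG_nonneg hδ hqV b))

/-- the product depends only on the predicate at the primes in `(zs, x]` -/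
theorem TFu_congr {δ : ℕ → ℕ → ℝ} {x s : ℕ} {U U' : ℕ → Prop}
    (h : ∀ p, p.Prime → p ∣ s → zs g < p → p ≤ x → (U p ↔ U' p)) :
    TFu g δ x s U = TFu g δ x s U' := by
  classical
  unfold TFu
  refine prod_congr rfl fun p hp => ?_
  obtain ⟨h1, h2⟩ := mem_filter.1 hp
  have h3 := h p (Nat.prime_of_mem_primeFactors h1) (Nat.dvd_of_mem_primeFactors h1) h2.1 h2.2
  by_cases h4 : U p
  · rw [if_pos h4, if_pos (h3.1 h4)]
  · rw [if_neg h4, if_neg fun h5 => h4 (h3.2 h5)]

/-- the same with the predicate `N - p < x` -/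
theorem TFu_le' {S : Finset ℕ} {δ : ℕ → ℕ → ℝ} {c κ A : ℝ} {mu : ℕ → ℕ → ℝ}
    {Cp : ℕ → Finset ℕ} {Pay : ℕ → ℕ → Prop} (D : DSys g S δ c κ A mu Cp Pay) (hδ : Om δ)
    (hV : g.V ⊆ Icc 1 (N g)) (hS : S ⊆ g.V) {q j x b : ℕ} (hq : q ∈ S) (hxb : x ≤ b)
    (hab : ps g j ≤ b) :
    TFu g δ (z g j) q (fun p => N g - p < x) ≤
      RK.UU (dvn g q) (mu q) c (ps g j) x * WG g δ q b := by
  refine le_trans (le_of_eq (TFu_congr fun p _ _ _ h => ?_)) (TFu_le D hδ hV hS hq hxb hab)
  have hps : ps g j = N g - z g j := rfl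
  constructor
  · intro h1
    exact ⟨by omega, h1⟩
  · intro h1
    exact h1.2

end Vale.P028.SK
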