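import Vale.Agent.P028.R103.TSDefs
import Vale.Agent.P028.H530.Delta
attribute [-instance] ProperSMul.toContinuousSMul IsTopologicalTorsor.toContinuousSMul IdemSemiring.toCanonicallyOrderedAdd IdemSemiring.toMulLeftMono IdemSemiring.toMulRightMono AddQuantale.instAddLeftMono AddQuantale.instAddRightMono Quantale.instMulLeftMono Quantale.instMulRightMono FiniteDimensional.rclike_to_real IsScalarTower.complexToReal FiniteDimensional.complexToReal

/-!
# Class TS: the data of the concrete dilution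
-/

namespace Vale.P028.SK

open Finset CF RN

variable {g : Cfg}

/-- the masses of the outer places depend only on the cell -/
theorem hn_cell_b {q r j k : ℕ} (h : r ∈ NT.cell g.V (f g) (thr g) (N g) (z g j) q)
    (hk : k < N g - z g j) : hn g r k = hn g q k := by
  have hp : z g j < N g - k := by omega
  have hcell : r ∈ NT.cell g.V (f g) (thr g) (N g) (N g - k) q := NT.cell_mono hp.le q h
  have hkc : kc g r (N g - k) = kc g q (N g - k) := kc_congr h hp
  have hQ : (Qc g r).factorization (N g - k) = (Qc g q).factorization (N g - k) := by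
    rw [Qc_fac, Qc_fac, hkc]
  have hS : Spl g r (N g - k) ↔ Spl g q (N g - k) := by
    unfold Spl
    rw [NT.cell_eq hcell]
  unfold hn
  by_cases h1 : (Qc g q).factorization (N g - k) ≠ 0 ∧ ¬ Spl g q (N g - k)
  · rw [if_pos h1, if_pos ⟨by rw [hQ]; exact h1.1, fun h2 => h1.2 (hS.1 h2)⟩]
  · rw [if_neg h1, if_neg fun h2 => h1 ⟨by rw [← hQ]; exact h2.1, fun h3 => h2.2 (hS.2 h3)⟩]

/-- **the data of class TS for the dilution `dd`** -/
theorem dsys_dd_b (hJ : JsOK g.K g.Js) (hX : g.Js ≤ g.X) (hV : g.V ⊆ Icc 1 (N g)) {c1 c : ℝ}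
    (h1 : 0 < c1) (h1' : c1 * Real.exp 24 ≤ 1) (hc : 0 < c) (hc1 : c ≤ 1)
    (hz : 4 ≤ c1 * zs g) {S : Finset ℕ} (hS : S ⊆ g.V) :
    DSys g S (dd g c1 c) c1 (c * c1 / 8) 2 (muw g c1) (NwP g) (Pyw g c1) where
  c_pos := h1
  c_small := h1'
  κ_pos := by positivity
  κ_le := by
    have h2 : c1 ≤ 1 := by
      have h3 : (1 : ℝ) ≤ Real.exp 24 := Real.one_le_exp (by norm_num)
      nlinarith
    have h3 : c * c1 ≤ 1 := mul_le_one₀ hc1 h1.le h2
    linarith
  A_nonneg := zero_le_two
  mu_nonneg := muw_nonneg h1.le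
  mu_le := fun q k => muw_le h1 (by norm_num) hz q k
  mu_hw := fun q _ k => by
    rw [c1_muw h1.ne']
    exact hn_le_hw q k
  mu_dev := fun q hq k hk => by
    rw [c1_muw h1.ne', hn_of_uw (hS hq) hk]
    unfold hw
    rw [if_pos (Qc_of_uw (hS hq) hk)]
  mu_cell := fun q _ r _ j h k hk => by
    unfold muw
    rw [hn_cell_b h hk]
  cp := fun q _ a => mem_NwP
  pos := fun q hq => Pos_w hJ hX hV h1 (by linarith) (hS hq)
  wg := fun q hq s => by
    have h2 : c1 ≤ 1 := by
      have h3 : (1 : ℝ) ≤ Real.exp 24 := Real.one_le_exp (by norm_num)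
      nlinarith
    have h4 := WG_le_Vt h1 h2 hc.le hc1 (by linarith) (hS hq) s
    have h5 := WG_nonneg (Om_dd (g := g) h1.le hc.le hc1) (hS hq) s
    have h6 : c * c1 ≤ 1 := mul_le_one₀ hc1 h1.le h2
    nlinarith

end Vale.P028.SK
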