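import Vale.Agent.P028.R103.TSDefs
import Vale.Agent.P028.R367.TSLev
attribute [-instance] ProperSMul.toContinuousSMul IsTopologicalTorsor.toContinuousSMul IdemSemiring.toCanonicallyOrderedAdd IdemSemiring.toMulLeftMono IdemSemiring.toMulRightMono AddQuantale.instAddLeftMono AddQuantale.instAddRightMono Quantale.instMulLeftMono Quantale.instMulRightMono FiniteDimensional.rclike_to_real IsScalarTower.complexToReal FiniteDimensional.complexToReal

/-!
# Class TS, part T2: the sum over the levels of one modulus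
-/

namespace Vale.P028.SK

open Finset CF RN

variable {g : Cfg}

/-- the positions of the stages are increasing -/
theorem ps_lt (hz : ∀ j, 1 ≤ j → j < nst g → z g (j + 1) < z g j)
    (hz2 : 2 ≤ nst g → z g 2 < N g) {i j : ℕ} (hi : 1 ≤ i) (hij : i < j) (hj : j ≤ nst g) :
    ps g i < ps g j := by
  have h1 : z g j < z g i := lt_of_le_of_lt (z_anti g (show i + 1 ≤ j by omega))
    (hz i hi (by omega))
  have h2 : z g j < N g := lt_of_le_of_lt (z_anti g (show 2 ≤ j by omega)) (hz2 (by omega))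
  unfold ps
  omega

theorem ps_mono {i j : ℕ} (hij : i ≤ j) : ps g i ≤ ps g j := by
  have := z_anti g hij
  unfold ps
  omega

/-- the levels of `q` which are not rare are before the cut -/
theorem lt_cst {Rr : ℕ → ℕ → Prop} (hRm : ∀ t j q, t ≤ j → Rr t q → Rr j q) {j q : ℕ}
    (hj : j ≤ nst g) (hρ : PA.rho (dat g) j q ≤ 1) (hR : ¬ Rr j q) : j < cst g Rr q := by
  classical
  unfold cst
  split_ifs with h
  · obtain ⟨h1, h2⟩ := Nat.find_spec h
    by_contra hcon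
    push Not at hcon
    rcases h2 with h2 | h2
    · have := PA.rho_mono' (D := dat g) hcon q
      linarith
    · exact hR (hRm _ _ _ hcon h2)
  · omega

theorem lt_ewp (hz : ∀ j, 1 ≤ j → j < nst g → z g (j + 1) < z g j)
    (hz2 : 2 ≤ nst g → z g 2 < N g) (hN0 : 0 < N g) {Rr : ℕ → ℕ → Prop}
    (hRm : ∀ t j q, t ≤ j → Rr t q → Rr j q) {j q : ℕ} (hj1 : 1 ≤ j)
    (hj : j ≤ nst g) (hρ : PA.rho (dat g) j q ≤ 1) (hR : ¬ Rr j q) : ps g j < ewp g Rr q := by
  classical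
  have h1 := lt_cst (g := g) hRm hj hρ hR
  unfold ewp
  split_ifs with h
  · exact ps_lt hz hz2 hj1 h1 h
  · have := one_le_z g j
    unfold ps
    omega

/-- the radius at a level -/
theorem El.rho_le (hN : NumOK g.K g.Js) (hX : g.Js ≤ g.X) (hV : g.V ⊆ Icc 1 (N g))
    {S : Finset ℕ} (hS : S ⊆ g.V) {j q : ℕ} (hq : q ∈ S) (h : El g S j q) :
    PA.rho (dat g) j q ≤ 1 := by
  obtain ⟨r, hr, n, hn, hT⟩ := h
  have h1 := (hT.data hN hX hV (hS hq) (hS hr)).lev.2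
  have h2 := one_le_JJ g (j + 1)
  refine h1.le.trans ?_
  rw [div_le_one (by linarith)]
  exact h2

/-- between two non adjacent levels of `q` there is a deviation -/
theorem El.dev (hN : NumOK g.K g.Js) (hX : g.Js ≤ g.X) (hV : g.V ⊆ Icc 1 (N g))
    (hc0 : g.K.P.c0 ≤ 1 / 24) {S : Finset ℕ} (hS : S ⊆ g.V) {j j' q : ℕ} (hq : q ∈ S)
    (h : El g S j q) (h' : El g S j' q) (hjj : j + 2 ≤ j') (hj' : j' ≤ nst g) :
    ∃ a, ps g j ≤ a ∧ a < ps g j' ∧ dvn g q a := by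
  obtain ⟨r, hr, n, hn, hT⟩ := h
  obtain ⟨r', hr', n', hn', hT'⟩ := h'
  have h1 := (TSD.ne_M hN.js hX hc0 (hT.data hN hX hV (hS hq) (hS hr))
    (hT'.data hN hX hV (hS hq) (hS hr')) hjj hj').2
  exact dev_of_M hV (hS hq) (show j ≤ j' by omega) (zs_le_z hN.js hX j') h1

/-- a set of stages without two non adjacent elements has at most two elements -/
theorem stages_card {A : Finset ℕ} (h : ∀ a ∈ A, ∀ b ∈ A, ¬ a + 2 ≤ b) : A.card ≤ 2 := by
  rcases A.eq_empty_or_nonempty with h0 | h0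
  · rw [h0]
    simp
  · have h1 : A ⊆ {A.min' h0, A.min' h0 + 1} := by
      intro a ha
      have h2 := A.min'_le a ha
      have h3 := h _ (A.min'_mem h0) a ha
      rw [mem_insert, mem_singleton]
      omega
    exact (card_le_card h1).trans Finset.card_le_two

open Classical in
/-- the sum over stages as a sum over positions -/
theorem sum_ps (hz : ∀ j, 1 ≤ j → j < nst g → z g (j + 1) < z g j)
    (hz2 : 2 ≤ nst g → z g 2 < N g) {A : Finset ℕ} (hA : A ⊆ Icc 1 (nst g)) (F : ℕ → ℝ) :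
    ∑ j ∈ A, F (ps g j) = ∑ x ∈ A.image (ps g), F x := by
  rw [sum_image]
  intro a ha b hb hab
  have h1 := mem_Icc.1 (hA ha)
  have h2 := mem_Icc.1 (hA hb)
  rcases lt_trichotomy a b with h | h | h
  · have := ps_lt hz hz2 h1.1 h h2.2
    omega
  · exact h
  · have := ps_lt hz hz2 h2.1 h h1.2
    omega

open Classical in
/-- **T2: the sum over the levels of one modulus.** -/
theorem tsSum (hN : NumOK g.K g.Js) (hX : g.Js ≤ g.X) (hV : g.V ⊆ Icc 1 (N g))
    (hc0 : g.K.P.c0 ≤ 1 / 24) {S : Finset ℕ} (hS : S ⊆ g.V) {δ : ℕ → ℕ → ℝ} {c κ A : ℝ}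
    {mu : ℕ → ℕ → ℝ} {Cp : ℕ → Finset ℕ} {Pay : ℕ → ℕ → Prop} (hD : DSys g S δ c κ A mu Cp Pay)
    {Rr : ℕ → ℕ → Prop} (hRm : ∀ t j q, t ≤ j → Rr t q → Rr j q) (hE : TSExc g S Rr)
    (hz : ∀ j, 1 ≤ j → j < nst g → z g (j + 1) < z g j) (hz2 : 2 ≤ nst g → z g 2 < N g)
    (hzs : ∑ i ∈ Icc 1 (nst g), (z g i : ℝ) ^ (-(1 / 4) : ℝ) ≤ 1) :
    TSSum g S Rr c κ (2 * TSW.CM 2 c 1 κ + TSW.CE 2 1 κ) mu Cp Pay := by
  intro q hq
  have hqV := hS hq
  have hq1 := mem_Icc.1 (hV hqV)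
  have hN0 : 0 < N g := by omega
  set dv := dvn g q with hdv
  set μ := mu q with hμd
  have hμ0 : ∀ k, 0 ≤ μ k := hD.mu_nonneg q
  have hμ1 : ∀ k, μ k ≤ 1 := fun k => (hD.mu_le q k).trans (by norm_num)
  have hc1 : c ≤ 1 := by
    have h1 := hD.c_small
    have h2 : (1 : ℝ) ≤ Real.exp 24 := Real.one_le_exp (by norm_num)
    have h3 := mul_le_mul_of_nonneg_left h2 hD.c_pos.le
    linarith
  have hcμ : ∀ k, 0 ≤ c * μ k ∧ c * μ k ≤ 1 := fun k =>
    ⟨mul_nonneg hD.c_pos.le (hμ0 k), mul_le_one₀ hc1 (hμ0 k) (hμ1 k)⟩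
  have hPos : RK.Pos dv μ (N g) (Cp q) (Pay q) := hD.pos q hq
  set L := (Icc 1 (nst g)).filter (fun j => El g S j q ∧ ¬ Rr j q) with hL
  have hLs : L ⊆ Icc 1 (nst g) := filter_subset _ _
  have hLm : ∀ j ∈ L, 1 ≤ j ∧ j ≤ nst g ∧ El g S j q ∧ ¬ Rr j q := by
    intro j hj
    obtain ⟨h1, h2⟩ := mem_filter.1 hj
    exact ⟨(mem_Icc.1 h1).1, (mem_Icc.1 h1).2, h2⟩
  have hLe : ∀ j ∈ L, ps g j < ewp g Rr q := by
    intro j hj
    obtain ⟨h1, h2, h3, h4⟩ := hLm j hj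
    exact lt_ewp hz hz2 hN0 hRm h1 h2 (h3.rho_le hN hX hV hS hq) h4
  have hewN : ewp g Rr q ≤ N g := by
    unfold ewp
    split_ifs
    · unfold ps
      omega
    · exact le_rfl
  have hLn : ∀ j ∈ L, ps g j < N g := fun j hj => lt_of_lt_of_le (hLe j hj) hewN
  have hinj : Set.InjOn (ps g) (L : Set ℕ) := by
    intro a ha b hb hab
    have h1 := hLm a ha
    have h2 := hLm b hb
    rcases lt_trichotomy a b with h | h | h
    · have := ps_lt hz hz2 h1.1 h h2.2.1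
      omega
    · exact h
    · have := ps_lt hz hz2 h2.1 h h1.2.1
      omega
  set M := L.image (ps g) with hM
  -- the marks are separated
  have hR : ∀ b < N g, ((range (b + 1)).filter
      (fun x => x ∈ M ∧ ∀ k, x ≤ k → k < b → ¬ dv k)).card ≤ 2 := by
    intro b _
    set A' := L.filter (fun j => ps g j ≤ b ∧ ∀ k, ps g j ≤ k → k < b → ¬ dv k) with hA'
    have h1 : (range (b + 1)).filter (fun x => x ∈ M ∧ ∀ k, x ≤ k → k < b → ¬ dv k) ⊆
        A'.image (ps g) := by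
      intro x hx
      obtain ⟨h2, h3, h4⟩ := mem_filter.1 hx
      obtain ⟨j, hj, rfl⟩ := mem_image.1 h3
      exact mem_image.2 ⟨j, mem_filter.2 ⟨hj, by have := mem_range.1 h2; omega, h4⟩, rfl⟩
    refine (card_le_card h1).trans (card_image_le.trans (stages_card ?_))
    intro j1 hj1 j2 hj2 hjj
    obtain ⟨a1, a2, a3⟩ := mem_filter.1 hj1
    obtain ⟨b1, b2, b3⟩ := mem_filter.1 hj2
    obtain ⟨a, c1, c2, c3⟩ := (hLm j1 a1).2.2.1.dev hN hX hV hc0 hS hq (hLm j2 b1).2.2.1 hjj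
      (hLm j2 b1).2.1
    exact a3 a c1 (by omega) c3
  have hCM0 : 0 ≤ TSW.CM 2 c 1 κ := TSW.CM_nonneg hD.c_pos one_pos hD.κ_pos
  -- the sum with an arbitrary cut
  have key : ∀ ew : ℕ, ∑ j ∈ L.filter (fun j => ps g j < ew), Real.exp (-Wn g mu j q) *
      (RK.UU dv μ c (ps g j) (min (RK.nx (Cp q) (N g) (ps g j)) ew) *
        RK.Vt κ (Pay q) (Cp q) (RK.nx (Cp q) (N g) (ps g j))) ≤ TSW.CM 2 c 1 κ := by
    intro ew
    have h1 := TSW.marks_sum (θ := 1) (R := 2) (M := M) hμ0 hμ1 hD.c_pos hc1 one_pos le_rfl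
      hD.κ_pos hD.κ_le hPos hR ew
    refine le_trans (le_of_eq ?_) h1
    have e1 : M.filter (fun x => x < N g ∧ x < ew) = (L.filter (fun j => ps g j < ew)).image
        (ps g) := by
      ext x
      simp only [hM, mem_filter, mem_image]
      constructor
      · rintro ⟨⟨j, hj, rfl⟩, h2, h3⟩
        exact ⟨j, ⟨hj, h3⟩, rfl⟩
      · rintro ⟨j, ⟨hj, h3⟩, rfl⟩
        exact ⟨⟨j, hj, rfl⟩, hLn j hj, h3⟩
    rw [e1, sum_image (fun a ha b hb hab => hinj (mem_filter.1 ha).1 (mem_filter.1 hb).1 hab)]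
    refine sum_congr rfl fun j _ => ?_
    rw [one_mul]
    rfl
  have hterm0 : ∀ j e, 0 ≤ Real.exp (-Wn g mu j q) *
      (RK.UU dv μ c (ps g j) e * RK.Vt κ (Pay q) (Cp q) (RK.nx (Cp q) (N g) (ps g j))) :=
    fun j e => mul_nonneg (Real.exp_pos _).le (mul_nonneg (RK.UU_bounds hcμ _ _).1
      (RK.Vt_bounds hD.κ_pos.le hD.κ_le _).1)
  -- first part
  have p1 : ∑ j ∈ L, Real.exp (-Wn g mu j q) *
      (RK.UU dv μ c (ps g j) (min (RK.nx (Cp q) (N g) (ps g j)) (ewp g Rr q)) *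
        RK.Vt κ (Pay q) (Cp q) (RK.nx (Cp q) (N g) (ps g j))) ≤ TSW.CM 2 c 1 κ := by
    have h1 := key (ewp g Rr q)
    rwa [filter_true_of_mem hLe] at h1
  -- second part
  have p2 : ∑ j ∈ L, Real.exp (-Wn g mu j q) *
      (∑ i ∈ Icc (j + 1) (nst g), (z g i : ℝ) ^ (-(1 / 4) : ℝ) *
        (RK.UU dv μ c (ps g j) (min (RK.nx (Cp q) (N g) (ps g j)) (min (ps g i) (ewp g Rr q))) *
        RK.Vt κ (Pay q) (Cp q) (RK.nx (Cp q) (N g) (ps g j)))) ≤ TSW.CM 2 c 1 κ := by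
    have e1 : ∑ j ∈ L, Real.exp (-Wn g mu j q) *
        (∑ i ∈ Icc (j + 1) (nst g), (z g i : ℝ) ^ (-(1 / 4) : ℝ) *
        (RK.UU dv μ c (ps g j) (min (RK.nx (Cp q) (N g) (ps g j)) (min (ps g i) (ewp g Rr q))) *
        RK.Vt κ (Pay q) (Cp q) (RK.nx (Cp q) (N g) (ps g j)))) =
        ∑ i ∈ Icc 1 (nst g), (z g i : ℝ) ^ (-(1 / 4) : ℝ) *
          ∑ j ∈ L.filter (fun j => j < i), Real.exp (-Wn g mu j q) *
        (RK.UU dv μ c (ps g j) (min (RK.nx (Cp q) (N g) (ps g j)) (min (ps g i) (ewp g Rr q))) *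
        RK.Vt κ (Pay q) (Cp q) (RK.nx (Cp q) (N g) (ps g j))) := by
      simp only [mul_sum]
      rw [sum_comm' (t' := Icc 1 (nst g)) (s' := fun i => L.filter (fun j => j < i))]
      · exact sum_congr rfl fun i _ => sum_congr rfl fun j _ => by ring
      · intro j i
        simp only [mem_filter, mem_Icc]
        constructor
        · rintro ⟨h1, h2, h3⟩
          exact ⟨⟨h1, by omega⟩, by omega, h3⟩
        · rintro ⟨⟨h1, h2⟩, h3, h4⟩
          exact ⟨h1, by omega, h4⟩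
    rw [e1]
    calc ∑ i ∈ Icc 1 (nst g), (z g i : ℝ) ^ (-(1 / 4) : ℝ) *
          ∑ j ∈ L.filter (fun j => j < i), Real.exp (-Wn g mu j q) *
        (RK.UU dv μ c (ps g j) (min (RK.nx (Cp q) (N g) (ps g j)) (min (ps g i) (ewp g Rr q))) *
        RK.Vt κ (Pay q) (Cp q) (RK.nx (Cp q) (N g) (ps g j)))
        ≤ ∑ i ∈ Icc 1 (nst g), (z g i : ℝ) ^ (-(1 / 4) : ℝ) * TSW.CM 2 c 1 κ := by
          refine sum_le_sum fun i hi => ?_
          refine mul_le_mul_of_nonneg_left ?_ (Real.rpow_nonneg (Nat.cast_nonneg _) _)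
          refine le_trans ?_ (key (min (ps g i) (ewp g Rr q)))
          refine sum_le_sum_of_subset_of_nonneg ?_ fun j _ _ => hterm0 j _
          intro j hj
          obtain ⟨h1, h2⟩ := mem_filter.1 hj
          refine mem_filter.2 ⟨h1, lt_min ?_ (hLe j h1)⟩
          exact ps_lt hz hz2 (hLm j h1).1 h2 (mem_Icc.1 hi).2
      _ ≤ TSW.CM 2 c 1 κ := by
          rw [← sum_mul]
          exact mul_le_of_le_one_left hCM0 hzs
  -- third part
  have p3 : ∑ j ∈ L, Real.exp (-Wn g mu j q) *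
      (if Exc g S Rr j q then RK.Vt κ (Pay q) (Cp q) (RK.nx (Cp q) (N g) (ps g j)) else 0) ≤
      TSW.CE 2 1 κ := by
    set L' := L.filter (fun j => Exc g S Rr j q) with hL'
    have h1 := TSW.exc_sum (θ := 1) (R' := 2) (E := L'.image (ps g)) hμ0 one_pos hD.κ_pos hD.κ_le
      hPos (by
        intro s hs
        set A' := L'.filter (fun j => s ≤ ps g j ∧ ps g j < RK.nx (Cp q) (N g) s) with hA'
        have h2 : (L'.image (ps g)).filter (fun x => s ≤ x ∧ x < RK.nx (Cp q) (N g) s) ⊆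
            A'.image (ps g) := by
          intro x hx
          obtain ⟨h3, h4⟩ := mem_filter.1 hx
          obtain ⟨j, hj, rfl⟩ := mem_image.1 h3
          exact mem_image.2 ⟨j, mem_filter.2 ⟨hj, h4⟩, rfl⟩
        refine (card_le_card h2).trans (card_image_le.trans (stages_card ?_))
        intro j1 hj1 j2 hj2 hjj
        obtain ⟨a1, a2, a3⟩ := mem_filter.1 hj1
        obtain ⟨b1, b2, b3⟩ := mem_filter.1 hj2
        obtain ⟨a4, a5⟩ := mem_filter.1 a1
        obtain ⟨b4, b5⟩ := mem_filter.1 b1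
        obtain ⟨t, t1, t2, t3⟩ := hE q hq j1 j2 (hLm j1 a4).1 hjj (hLm j2 b4).2.1 a5 b5
        have h5 : ps g t ∈ Cp q :=
          (hD.cp q hq _).2 ⟨t, by omega, t2.trans (hLm j2 b4).2.1, t3, rfl⟩
        have h6 : ps g j1 < ps g t := ps_lt hz hz2 (hLm j1 a4).1 t1 (t2.trans (hLm j2 b4).2.1)
        have h7 : RK.nx (Cp q) (N g) s ≤ ps g t := RK.nx_le_of_mem h5 (by omega)
        have h8 : ps g t ≤ ps g j2 := ps_mono t2
        omega)
    have e1 : ∑ j ∈ L, Real.exp (-Wn g mu j q) *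
        (if Exc g S Rr j q then RK.Vt κ (Pay q) (Cp q) (RK.nx (Cp q) (N g) (ps g j)) else 0) =
        ∑ j ∈ L', Real.exp (-Wn g mu j q) *
          RK.Vt κ (Pay q) (Cp q) (RK.nx (Cp q) (N g) (ps g j)) := by
      rw [hL']
      refine Eq.trans ?_ (sum_filter (s := L) (fun j => Exc g S Rr j q) (fun j =>
        Real.exp (-Wn g mu j q) *
          RK.Vt κ (Pay q) (Cp q) (RK.nx (Cp q) (N g) (ps g j)))).symm
      refine sum_congr rfl fun j _ => ?_
      split_ifs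
      · rfl
      · ring
    rw [e1]
    refine le_trans (le_of_eq ?_) h1
    have e2 : (L'.image (ps g)).filter (fun x => x < N g) = L'.image (ps g) := by
      refine filter_true_of_mem fun x hx => ?_
      obtain ⟨j, hj, rfl⟩ := mem_image.1 hx
      exact hLn j (mem_filter.1 hj).1
    rw [e2, sum_image (fun a ha b hb hab => hinj (mem_filter.1 ha).1 (mem_filter.1 hb).1 hab)]
    refine sum_congr rfl fun j _ => ?_
    rw [one_mul]
    rfl
  have e : ∑ j ∈ L, Real.exp (-Wn g mu j q) * Gm g S Rr c κ mu Cp Pay j q =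
      ∑ j ∈ L, Real.exp (-Wn g mu j q) *
        (RK.UU dv μ c (ps g j) (min (RK.nx (Cp q) (N g) (ps g j)) (ewp g Rr q)) *
          RK.Vt κ (Pay q) (Cp q) (RK.nx (Cp q) (N g) (ps g j))) +
      ∑ j ∈ L, Real.exp (-Wn g mu j q) *
        (∑ i ∈ Icc (j + 1) (nst g), (z g i : ℝ) ^ (-(1 / 4) : ℝ) *
        (RK.UU dv μ c (ps g j) (min (RK.nx (Cp q) (N g) (ps g j)) (min (ps g i) (ewp g Rr q))) *
        RK.Vt κ (Pay q) (Cp q) (RK.nx (Cp q) (N g) (ps g j)))) +
      ∑ j ∈ L, Real.exp (-Wn g mu j q) *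
        (if Exc g S Rr j q then RK.Vt κ (Pay q) (Cp q) (RK.nx (Cp q) (N g) (ps g j))
          else 0) := by
    rw [← sum_add_distrib, ← sum_add_distrib]
    refine sum_congr rfl fun j _ => ?_
    unfold Gm
    ring
  rw [e]
  linarith

end Vale.P028.SK
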