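import Vale.Agent.P028.MathlibUsed

/-!
# The pathwise sums over the marks of a word (class TS of the full first question)

Steps `k = 0, 1, …` of a word; `dv k` : the step `k` is a deviation, `μ k ≥ 0` its mass.
`W` grows by at least `h` at a deviation and loses at most `μ k` at a trivial step.
-/

namespace Vale.P028.TSW

open Finset

theorem Ico_succ' {a b : ℕ} (h : a ≤ b) : Ico a (b + 1) = insert b (Ico a b) := by
  ext k
  simp only [mem_Ico, mem_insert]
  omega

section phase

variable (dv : ℕ → Prop) [DecidablePred dv]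

/-- the discount of the trivial steps of `[a, b)` -/
noncomputable def Us (c : ℝ) (μ : ℕ → ℝ) (a b : ℕ) : ℝ :=
  ∏ k ∈ (Ico a b).filter (fun k => ¬ dv k), (1 - c * μ k)

/-- the number of deviations of `[a, b)` -/
def nd (a b : ℕ) : ℕ := ((Ico a b).filter (fun k => dv k)).card

/-- the trivial mass of `[a, b)` -/
noncomputable def tm (μ : ℕ → ℝ) (a b : ℕ) : ℝ :=
  ∑ k ∈ (Ico a b).filter (fun k => ¬ dv k), μ k

theorem Us_self (c : ℝ) (μ : ℕ → ℝ) (a : ℕ) : Us dv c μ a a = 1 := by
  simp [Us]

theorem Us_succ (c : ℝ) (μ : ℕ → ℝ) {a b : ℕ} (h : a ≤ b) :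
    Us dv c μ a (b + 1) = Us dv c μ a b * (if dv b then 1 else 1 - c * μ b) := by
  unfold Us
  rw [Ico_succ' h, filter_insert]
  by_cases hb : dv b
  · simp [hb]
  · rw [if_pos hb, prod_insert (by simp), if_neg hb, mul_comm]

theorem Us_nonneg {c : ℝ} {μ : ℕ → ℝ} (hc : ∀ k, c * μ k ≤ 1) (a b : ℕ) : 0 ≤ Us dv c μ a b :=
  prod_nonneg fun k _ => by linarith [hc k]

theorem Us_le_one {c : ℝ} {μ : ℕ → ℝ} (hc : ∀ k, c * μ k ≤ 1) (hc' : ∀ k, 0 ≤ c * μ k)
    (a b : ℕ) : Us dv c μ a b ≤ 1 :=
  prod_le_one (fun k _ => by linarith [hc k]) fun k _ => by linarith [hc' k]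

theorem Us_mul {c : ℝ} {μ : ℕ → ℝ} {a b d : ℕ} (h1 : a ≤ b) (h2 : b ≤ d) :
    Us dv c μ a b * Us dv c μ b d = Us dv c μ a d := by
  unfold Us
  rw [← prod_union]
  · rw [← filter_union, Ico_union_Ico_eq_Ico h1 h2]
  · exact disjoint_filter_filter (Ico_disjoint_Ico_consecutive a b d)

theorem nd_succ {a b : ℕ} (h : a ≤ b) : nd dv a (b + 1) = nd dv a b + (if dv b then 1 else 0) := by
  unfold nd
  rw [Ico_succ' h, filter_insert]
  by_cases hb : dv b
  · rw [if_pos hb, card_insert_of_notMem (by simp), if_pos hb]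
  · simp [hb]

theorem tm_succ (μ : ℕ → ℝ) {a b : ℕ} (h : a ≤ b) :
    tm dv μ a (b + 1) = tm dv μ a b + (if dv b then 0 else μ b) := by
  unfold tm
  rw [Ico_succ' h, filter_insert]
  by_cases hb : dv b
  · simp [hb]
  · rw [if_pos hb, sum_insert (by simp), if_neg hb, add_comm]

/-- the growth of the walk along an interval -/
theorem walk_ge {h : ℝ} {μ W : ℕ → ℝ} (hW1 : ∀ k, dv k → W k + h ≤ W (k + 1))
    (hW2 : ∀ k, ¬ dv k → W k - μ k ≤ W (k + 1)) {a b : ℕ} (hab : a ≤ b) :
    W a + h * nd dv a b - tm dv μ a b ≤ W b := by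
  induction b, hab using Nat.le_induction with
  | base => simp [nd, tm]
  | succ b hb ih =>
    rw [nd_succ dv hb, tm_succ dv μ hb]
    by_cases hd : dv b
    · rw [if_pos hd, if_pos hd]
      have := hW1 b hd
      push_cast
      linarith
    · rw [if_neg hd, if_neg hd]
      have := hW2 b hd
      push_cast
      linarith

/-- no deviation in `[j, b)` -/
def nv (j b : ℕ) : Prop := ∀ k ∈ Ico j b, ¬ dv k

instance (j b : ℕ) : Decidable (nv dv j b) := by unfold nv; infer_instance

omit [DecidablePred dv] in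
theorem nv_succ {j b : ℕ} (hb : ¬ dv b) : nv dv j (b + 1) ↔ nv dv j b := by
  unfold nv
  constructor
  · intro h k hk
    exact h k (mem_Ico.2 ⟨(mem_Ico.1 hk).1, by have := (mem_Ico.1 hk).2; omega⟩)
  · intro h k hk
    rcases Nat.lt_succ_iff_lt_or_eq.1 (mem_Ico.1 hk).2 with h2 | h2
    · exact h k (mem_Ico.2 ⟨(mem_Ico.1 hk).1, h2⟩)
    · rw [h2]
      exact hb

omit [DecidablePred dv] in
theorem nv_self (b : ℕ) : nv dv b b := by
  intro k hk
  have := mem_Ico.1 hk
  omega

/-- the marks `j` in `[s, b)` without a deviation in `[j, b)` -/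
def rr (M : Finset ℕ) (s b : ℕ) : ℕ := ((Ico s b).filter (fun j => j ∈ M ∧ nv dv j b)).card

theorem rr_dev {M : Finset ℕ} {s b : ℕ} (hb : dv b) : rr dv M s (b + 1) = 0 := by
  unfold rr
  refine Finset.card_eq_zero.2 (Finset.eq_empty_of_forall_notMem fun j hj => ?_)
  have h := mem_filter.1 hj
  exact h.2.2 b (mem_Ico.2 ⟨by have := (mem_Ico.1 h.1).2; omega, by omega⟩) hb

theorem rr_triv {M : Finset ℕ} {s b : ℕ} (hs : s ≤ b) (hb : ¬ dv b) :
    rr dv M s (b + 1) = rr dv M s b + (if b ∈ M then 1 else 0) := by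
  unfold rr
  rw [Ico_succ' hs, filter_insert]
  have h1 : (Ico s b).filter (fun j => j ∈ M ∧ nv dv j (b + 1)) =
      (Ico s b).filter (fun j => j ∈ M ∧ nv dv j b) :=
    filter_congr fun j _ => and_congr_right fun _ => nv_succ dv hb
  by_cases hM : b ∈ M
  · have h2 : (b ∈ M ∧ nv dv b (b + 1)) := ⟨hM, (nv_succ dv hb).2 (nv_self dv b)⟩
    rw [if_pos h2, card_insert_of_notMem (by simp), h1, if_pos hM]
  · rw [if_neg (fun h => hM h.1), h1, if_neg hM]
    simp

theorem rr_self (M : Finset ℕ) (s : ℕ) : rr dv M s s = 0 := by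
  unfold rr
  simp

/-- the discounted sum over the marks of `[s, b)` -/
noncomputable def As (c θ : ℝ) (μ W : ℕ → ℝ) (M : Finset ℕ) (s b : ℕ) : ℝ :=
  ∑ j ∈ (Ico s b).filter (fun j => j ∈ M), Real.exp (-(θ * W j)) * Us dv c μ j b

theorem As_self (c θ : ℝ) (μ W : ℕ → ℝ) (M : Finset ℕ) (s : ℕ) : As dv c θ μ W M s s = 0 := by
  simp [As]

theorem As_succ (c θ : ℝ) (μ W : ℕ → ℝ) (M : Finset ℕ) {s b : ℕ} (hs : s ≤ b) :
    As dv c θ μ W M s (b + 1) =
      (As dv c θ μ W M s b + (if b ∈ M then Real.exp (-(θ * W b)) else 0)) *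
        (if dv b then 1 else 1 - c * μ b) := by
  unfold As
  rw [Ico_succ' hs, filter_insert]
  have h1 : ∑ j ∈ (Ico s b).filter (fun j => j ∈ M), Real.exp (-(θ * W j)) * Us dv c μ j (b + 1) =
      (∑ j ∈ (Ico s b).filter (fun j => j ∈ M), Real.exp (-(θ * W j)) * Us dv c μ j b) *
        (if dv b then 1 else 1 - c * μ b) := by
    rw [sum_mul]
    refine sum_congr rfl fun j hj => ?_
    rw [Us_succ dv c μ (mem_Ico.1 (mem_filter.1 hj).1).2.le]
    ring
  by_cases hM : b ∈ M
  · rw [if_pos hM, sum_insert (by simp), h1, if_pos hM, Us_succ dv c μ le_rfl, Us_self]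
    ring
  · rw [if_neg hM, h1, if_neg hM]
    ring

theorem As_nonneg {c θ : ℝ} {μ W : ℕ → ℝ} (hc : ∀ k, c * μ k ≤ 1) (M : Finset ℕ) (s b : ℕ) :
    0 ≤ As dv c θ μ W M s b :=
  sum_nonneg fun _ _ => mul_nonneg (Real.exp_pos _).le (Us_nonneg dv hc _ _)

/-- constants of the pathwise sums -/
noncomputable def Bp (R : ℕ) (θ h : ℝ) : ℝ := R / (Real.exp (θ * h) - 1)

noncomputable def Cp (R : ℕ) (c θ h : ℝ) : ℝ := (R + Bp R θ h) * (3 + 2 * θ / c)

theorem Bp_nonneg {R : ℕ} {θ h : ℝ} (hθ : 0 < θ) (hh : 0 < h) : 0 ≤ Bp R θ h := by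
  unfold Bp
  have : 1 < Real.exp (θ * h) := Real.one_lt_exp_iff.2 (mul_pos hθ hh)
  exact div_nonneg (Nat.cast_nonneg _) (by linarith)

/-- **The sum over the marks inside one phase.** -/
theorem phase_le {c θ h m : ℝ} {μ W : ℕ → ℝ} {M : Finset ℕ} {R s e : ℕ}
    (hc : 0 < c) (hθ : 0 < θ) (hh : 0 < h) (hμ0 : ∀ k, 0 ≤ μ k) (hμc : ∀ k, c * μ k ≤ 1)
    (hμθ : ∀ k, θ * μ k ≤ 1)
    (hW1 : ∀ k, dv k → W k + h ≤ W (k + 1)) (hW2 : ∀ k, ¬ dv k → W k - μ k ≤ W (k + 1))
    (hm : ∀ k, s ≤ k → k < e → m ≤ W k)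
    (hR : ∀ b, s ≤ b → b < e → rr dv M s b + (if b ∈ M then 1 else 0) ≤ R)
    {b : ℕ} (hsb : s ≤ b) (hbe : b ≤ e) :
    As dv c θ μ W M s b ≤ Cp R c θ h * Real.exp (-(θ * m)) := by
  classical
  have hB := Bp_nonneg (R := R) hθ hh
  have hR0 : (0 : ℝ) ≤ R := Nat.cast_nonneg R
  set B := Bp R θ h with hBdef
  have hE1 : 1 < Real.exp (θ * h) := Real.one_lt_exp_iff.2 (mul_pos hθ hh)
  have hBeq : (R + B) * Real.exp (-(θ * h)) = B := by
    rw [hBdef, Bp, Real.exp_neg]
    have h1 : Real.exp (θ * h) ≠ 0 := (Real.exp_pos _).ne'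
    have h2 : Real.exp (θ * h) - 1 ≠ 0 := by linarith
    field_simp
    ring
  have hCp : Cp R c θ h = (R + B) * (3 + 2 * θ / c) := rfl
  have hRB : R + B ≤ Cp R c θ h := by
    rw [hCp]
    refine le_mul_of_one_le_right (by linarith) ?_
    have : 0 ≤ 2 * θ / c := by positivity
    linarith
  have hCp0 : 0 ≤ Cp R c θ h := by linarith
  -- the potential
  rcases Nat.eq_or_lt_of_le (hsb.trans hbe) with hse | hse
  · have : b = s := by omega
    subst this
    rw [As_self]
    exact mul_nonneg hCp0 (Real.exp_pos _).le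
  have key : ∀ b, s ≤ b → b ≤ e → (b < e →
      As dv c θ μ W M s b + (R - rr dv M s b + B) * Real.exp (-(θ * W b)) ≤
        Cp R c θ h * Real.exp (-(θ * m))) ∧
      As dv c θ μ W M s b ≤ Cp R c θ h * Real.exp (-(θ * m)) := by
    intro b hb
    induction b, hb using Nat.le_induction with
    | base =>
      intro _
      refine ⟨fun h1 => ?_, ?_⟩
      · rw [As_self, rr_self, zero_add]
        simp only [Nat.cast_zero, sub_zero]
        refine mul_le_mul hRB ?_ (Real.exp_pos _).le hCp0
        refine Real.exp_le_exp.2 (neg_le_neg ?_)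
        exact mul_le_mul_of_nonneg_left (hm s le_rfl hse) hθ.le
      · rw [As_self]
        exact mul_nonneg hCp0 (Real.exp_pos _).le
    | succ b hb ih =>
      intro hbe'
      have hbe1 : b < e := by omega
      have ih1 := (ih hbe1.le).1 hbe1
      have hA0 := As_nonneg dv (c := c) (θ := θ) (μ := μ) (W := W) hμc M s b
      have hrR := hR b hb hbe1
      have hEb := Real.exp_pos (-(θ * W b))
      have hEm : Real.exp (-(θ * W b)) ≤ Real.exp (-(θ * m)) :=
        Real.exp_le_exp.2 (neg_le_neg (mul_le_mul_of_nonneg_left (hm b hb hbe1) hθ.le))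
      have hrr : (rr dv M s b : ℝ) + (if b ∈ M then 1 else 0) ≤ R := by
        by_cases hM : b ∈ M
        · rw [if_pos hM] at hrR ⊢
          exact_mod_cast hrR
        · rw [if_neg hM] at hrR ⊢
          rw [add_zero] at hrR ⊢
          exact_mod_cast hrR
      -- adding the mark at `b`
      set A1 := As dv c θ μ W M s b + (if b ∈ M then Real.exp (-(θ * W b)) else 0) with hA1
      set r1 : ℝ := (rr dv M s b : ℝ) + (if b ∈ M then 1 else 0) with hr1
      have hA10 : 0 ≤ A1 := by
        rw [hA1]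
        split_ifs <;> linarith
      have hr10 : 0 ≤ r1 := by
        rw [hr1]
        split_ifs <;> positivity
      have hpot : A1 + (R - r1 + B) * Real.exp (-(θ * W b)) ≤ Cp R c θ h * Real.exp (-(θ * m)) := by
        refine le_trans (le_of_eq ?_) ih1
        rw [hA1, hr1]
        split_ifs
        · ring
        · ring
      rw [As_succ dv c θ μ W M hb, ← hA1]
      by_cases hd : dv b
      · rw [if_pos hd, mul_one, rr_dev dv hd]
        have hW' : Real.exp (-(θ * W (b + 1))) ≤ Real.exp (-(θ * h)) * Real.exp (-(θ * W b)) := by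
          rw [← Real.exp_add]
          refine Real.exp_le_exp.2 ?_
          have := mul_le_mul_of_nonneg_left (hW1 b hd) hθ.le
          linarith
        have h3 : (R - ((0 : ℕ) : ℝ) + B) * Real.exp (-(θ * W (b + 1))) ≤
            (R - r1 + B) * Real.exp (-(θ * W b)) := by
          rw [Nat.cast_zero, sub_zero]
          calc (R + B) * Real.exp (-(θ * W (b + 1)))
              ≤ (R + B) * (Real.exp (-(θ * h)) * Real.exp (-(θ * W b))) :=
                mul_le_mul_of_nonneg_left hW' (by linarith)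
            _ = B * Real.exp (-(θ * W b)) := by rw [← mul_assoc, hBeq]
            _ ≤ (R - r1 + B) * Real.exp (-(θ * W b)) :=
                mul_le_mul_of_nonneg_right (by linarith) hEb.le
        refine ⟨fun _ => by linarith, ?_⟩
        have : 0 ≤ (R - r1 + B) * Real.exp (-(θ * W b)) := mul_nonneg (by linarith) hEb.le
        linarith
      · rw [if_neg hd, rr_triv dv hb hd]
        have hr1' : (((rr dv M s b + (if b ∈ M then 1 else 0) : ℕ)) : ℝ) = r1 := by
          rw [hr1]
          push_cast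
          rfl
        rw [hr1']
        have hcμ : 0 ≤ c * μ b := mul_nonneg hc.le (hμ0 b)
        have hA1' : A1 * (1 - c * μ b) ≤ A1 := by
          have := mul_nonneg hA10 hcμ
          linarith
        have hG0 : 0 ≤ R - r1 + B := by linarith
        have hGR : R - r1 + B ≤ R + B := by linarith
        refine ⟨fun _ => ?_, ?_⟩
        · have hW' : Real.exp (-(θ * W (b + 1))) ≤
              (1 + 2 * θ * μ b) * Real.exp (-(θ * W b)) := by
            have h4 : Real.exp (-(θ * W (b + 1))) ≤ Real.exp (θ * μ b) * Real.exp (-(θ * W b)) := by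
              rw [← Real.exp_add]
              refine Real.exp_le_exp.2 ?_
              have := mul_le_mul_of_nonneg_left (hW2 b hd) hθ.le
              linarith
            have h5 : Real.exp (θ * μ b) ≤ 1 + 2 * (θ * μ b) := by
              have h0 : 0 ≤ θ * μ b := mul_nonneg hθ.le (hμ0 b)
              have h6 := Real.exp_bound' h0 (hμθ b) (n := 2) (by norm_num)
              simp only [sum_range_succ, range_zero, sum_empty, Nat.factorial] at h6
              norm_num at h6
              nlinarith [hμθ b]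
            calc _ ≤ _ := h4
              _ ≤ (1 + 2 * θ * μ b) * Real.exp (-(θ * W b)) :=
                mul_le_mul_of_nonneg_right (by linarith) hEb.le
          have h6 : (R - r1 + B) * Real.exp (-(θ * W (b + 1))) ≤
              (R - r1 + B) * Real.exp (-(θ * W b)) +
                2 * θ * μ b * ((R + B) * Real.exp (-(θ * W b))) := by
            have h7 := mul_le_mul_of_nonneg_left hW' hG0
            have h8 : (R - r1 + B) * (2 * θ * μ b * Real.exp (-(θ * W b))) ≤
                (R + B) * (2 * θ * μ b * Real.exp (-(θ * W b))) :=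
              mul_le_mul_of_nonneg_right hGR
                (mul_nonneg (mul_nonneg (by linarith) (hμ0 b)) hEb.le)
            nlinarith
          rcases le_or_gt (2 * θ * ((R + B) * Real.exp (-(θ * W b)))) (c * A1) with h9 | h9
          · have h10 := mul_le_mul_of_nonneg_left h9 (hμ0 b)
            nlinarith
          · have h11 : A1 ≤ 2 * θ / c * ((R + B) * Real.exp (-(θ * W b))) := by
              rw [div_mul_eq_mul_div, le_div_iff₀ hc]
              linarith
            have h12 : (R - r1 + B) * Real.exp (-(θ * W b)) ≤ (R + B) * Real.exp (-(θ * W b)) :=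
              mul_le_mul_of_nonneg_right hGR hEb.le
            have hP0 : 0 ≤ (R + B) * Real.exp (-(θ * W b)) := mul_nonneg (by linarith) hEb.le
            have hPm : (R + B) * Real.exp (-(θ * W b)) ≤ (R + B) * Real.exp (-(θ * m)) :=
              mul_le_mul_of_nonneg_left hEm (by linarith)
            have h13 : 2 * θ * μ b * ((R + B) * Real.exp (-(θ * W b))) ≤
                2 * ((R + B) * Real.exp (-(θ * W b))) :=
              mul_le_mul_of_nonneg_right (by linarith [hμθ b]) hP0
            have h15 : 0 ≤ 3 + 2 * θ / c := by positivity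
            calc A1 * (1 - c * μ b) + (R - r1 + B) * Real.exp (-(θ * W (b + 1)))
                ≤ (3 + 2 * θ / c) * ((R + B) * Real.exp (-(θ * W b))) := by linarith
              _ ≤ (3 + 2 * θ / c) * ((R + B) * Real.exp (-(θ * m))) :=
                  mul_le_mul_of_nonneg_left hPm h15
              _ = Cp R c θ h * Real.exp (-(θ * m)) := by
                  rw [hCp]
                  ring
        · have : 0 ≤ (R - r1 + B) * Real.exp (-(θ * W b)) := mul_nonneg hG0 hEb.le
          linarith
  exact (key b hsb hbe).2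

end phase

/-! ### the sum over the phases -/

/-- the payments of the phases `k, …, N - 1` -/
noncomputable def Vp (κ : ℝ) (pay : ℕ → Prop) [DecidablePred pay] (k N : ℕ) : ℝ :=
  ∏ _i ∈ (Ico k N).filter (fun i => pay i), (1 - κ)

theorem Vp_self (κ : ℝ) (pay : ℕ → Prop) [DecidablePred pay] (k : ℕ) : Vp κ pay k k = 1 := by
  simp [Vp]

theorem Vp_succ (κ : ℝ) (pay : ℕ → Prop) [DecidablePred pay] {k N : ℕ} (h : k ≤ N) :
    Vp κ pay k (N + 1) = Vp κ pay k N * (if pay N then 1 - κ else 1) := by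
  unfold Vp
  rw [Ico_succ' h, filter_insert]
  by_cases hb : pay N
  · rw [if_pos hb, prod_insert (by simp), if_pos hb, mul_comm]
  · simp [hb]

theorem Vp_nonneg {κ : ℝ} (hκ1 : κ ≤ 1) (pay : ℕ → Prop) [DecidablePred pay] (k N : ℕ) :
    0 ≤ Vp κ pay k N :=
  prod_nonneg fun _ _ => by linarith

/-- **The sum over the phases**: a paying phase costs `C0` and multiplies the past by `1 - κ`;
a nonpaying phase which starts at height `X k` costs `C1 e^(-θ X k)` and raises the walk by `g`. -/
theorem phases_le {κ C0 C1 g θ : ℝ} {N : ℕ} {X A : ℕ → ℝ} {pay : ℕ → Prop} [DecidablePred pay]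
    (hκ : 0 < κ) (hκ1 : κ ≤ 1) (hθ : 0 < θ) (hg : 0 < g) (hC0 : 0 ≤ C0) (hC1 : 0 ≤ C1)
    (hX : ∀ k ≤ N, 0 ≤ X k)
    (hpay : ∀ k < N, pay k → A k ≤ C0)
    (hnp : ∀ k < N, ¬ pay k → A k ≤ C1 * Real.exp (-(θ * X k)) ∧ X k + g ≤ X (k + 1)) :
    ∑ k ∈ range N, A k * Vp κ pay (k + 1) N ≤ (C0 + C1 / (1 - Real.exp (-(θ * g)))) / κ := by
  set Q : ℝ := C1 / (1 - Real.exp (-(θ * g))) with hQ
  have hE1 : Real.exp (-(θ * g)) < 1 := by
    rw [Real.exp_lt_one_iff]
    have := mul_pos hθ hg
    linarith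
  have hQ0 : 0 ≤ Q := div_nonneg hC1 (by linarith)
  have hQeq : Q * (1 - Real.exp (-(θ * g))) = C1 := by
    rw [hQ]
    exact div_mul_cancel₀ _ (by linarith)
  have key : ∀ n ≤ N, ∑ k ∈ range n, A k * Vp κ pay (k + 1) n + Q * Real.exp (-(θ * X n)) ≤
      (C0 + Q) / κ := by
    intro n
    induction n with
    | zero =>
      intro _
      rw [range_zero, sum_empty, zero_add, le_div_iff₀ hκ]
      have h1 : Real.exp (-(θ * X 0)) ≤ 1 := by
        rw [Real.exp_le_one_iff]
        have := mul_nonneg hθ.le (hX 0 (Nat.zero_le _))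
        linarith
      have h2 : Q * Real.exp (-(θ * X 0)) * κ ≤ Q * 1 * 1 :=
        mul_le_mul (mul_le_mul_of_nonneg_left h1 hQ0) hκ1 hκ.le (by linarith)
      linarith
    | succ n ih =>
      intro hn
      have ih1 := ih (by omega)
      rw [sum_range_succ, Vp_self, mul_one]
      have e1 : ∑ k ∈ range n, A k * Vp κ pay (k + 1) (n + 1) =
          (∑ k ∈ range n, A k * Vp κ pay (k + 1) n) * (if pay n then 1 - κ else 1) := by
        rw [sum_mul]
        refine sum_congr rfl fun k hk => ?_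
        rw [Vp_succ κ pay (by have := mem_range.1 hk; omega), mul_assoc]
      rw [e1]
      have hXn := hX n (by omega)
      have hXn1 := hX (n + 1) hn
      by_cases hp : pay n
      · rw [if_pos hp]
        have h3 := hpay n (by omega) hp
        have h4 : Q * Real.exp (-(θ * X (n + 1))) ≤ Q := by
          refine mul_le_of_le_one_right hQ0 ?_
          rw [Real.exp_le_one_iff]
          have := mul_nonneg hθ.le hXn1
          linarith
        have h5 : ∑ k ∈ range n, A k * Vp κ pay (k + 1) n ≤ (C0 + Q) / κ := by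
          have := mul_nonneg hQ0 (Real.exp_pos (-(θ * X n))).le
          linarith
        have h6 : (∑ k ∈ range n, A k * Vp κ pay (k + 1) n) * (1 - κ) ≤ (C0 + Q) / κ * (1 - κ) :=
          mul_le_mul_of_nonneg_right h5 (by linarith)
        have h7 : (C0 + Q) / κ * (1 - κ) = (C0 + Q) / κ - (C0 + Q) := by
          field_simp
        linarith
      · rw [if_neg hp, mul_one]
        obtain ⟨h3, h4⟩ := hnp n (by omega) hp
        have h5 : Real.exp (-(θ * X (n + 1))) ≤ Real.exp (-(θ * g)) * Real.exp (-(θ * X n)) := by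
          rw [← Real.exp_add]
          refine Real.exp_le_exp.2 ?_
          have := mul_le_mul_of_nonneg_left h4 hθ.le
          linarith
        have h6 := mul_le_mul_of_nonneg_left h5 hQ0
        have h7 : C1 * Real.exp (-(θ * X n)) + Q * (Real.exp (-(θ * g)) * Real.exp (-(θ * X n))) =
            Q * Real.exp (-(θ * X n)) := by
          rw [← hQeq]
          ring
        linarith
  have h1 := key N le_rfl
  have h2 := mul_nonneg hQ0 (Real.exp_pos (-(θ * X N))).le
  linarith

/-! ### words with cuts -/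

section word

variable (dv : ℕ → Prop) [DecidablePred dv]

theorem rr_mono {M : Finset ℕ} {s t b : ℕ} (h : s ≤ t) : rr dv M t b ≤ rr dv M s b := by
  unfold rr
  exact card_le_card (filter_subset_filter _ (Ico_subset_Ico_left h))

/-- the payments of the phases which start at or after `i` and before `b` -/
noncomputable def Vw (κ : ℝ) (cs : Finset ℕ) (pay : ℕ → Prop) [DecidablePred pay] (i b : ℕ) : ℝ :=
  ∏ _s ∈ cs.filter (fun s => i ≤ s ∧ s < b ∧ pay s), (1 - κ)

theorem Vw_nonneg {κ : ℝ} (hκ1 : κ ≤ 1) (cs : Finset ℕ) (pay : ℕ → Prop) [DecidablePred pay]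
    (i b : ℕ) : 0 ≤ Vw κ cs pay i b :=
  prod_nonneg fun _ _ => by linarith

theorem Vw_self (κ : ℝ) (cs : Finset ℕ) (pay : ℕ → Prop) [DecidablePred pay] {i b : ℕ}
    (h : b ≤ i) : Vw κ cs pay i b = 1 := by
  unfold Vw
  rw [filter_eq_empty_iff.2, prod_empty]
  intro s _ h1
  omega

/-- one more phase `[s, t)` -/
theorem Vw_step (κ : ℝ) {cs : Finset ℕ} (pay : ℕ → Prop) [DecidablePred pay] {i s t : ℕ}
    (hs : s ∈ cs) (hst : s < t) (hno : ∀ x ∈ cs, s < x → t ≤ x) (his : i ≤ s) :
    Vw κ cs pay i t = Vw κ cs pay i s * (if pay s then 1 - κ else 1) := by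
  unfold Vw
  by_cases hp : pay s
  · rw [if_pos hp]
    have h1 : cs.filter (fun x => i ≤ x ∧ x < t ∧ pay x) =
        insert s (cs.filter (fun x => i ≤ x ∧ x < s ∧ pay x)) := by
      ext x
      simp only [mem_filter, mem_insert]
      constructor
      · rintro ⟨h2, h3, h4, h5⟩
        rcases lt_trichotomy x s with h6 | h6 | h6
        · exact Or.inr ⟨h2, h3, h6, h5⟩
        · exact Or.inl h6
        · exact absurd (hno x h2 h6) (by omega)
      · rintro (h2 | ⟨h2, h3, h4, h5⟩)
        · subst h2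
          exact ⟨hs, his, hst, hp⟩
        · exact ⟨h2, h3, by omega, h5⟩
    rw [h1, prod_insert (by simp), mul_comm]
  · rw [if_neg hp, mul_one]
    refine prod_congr ?_ fun _ _ => rfl
    ext x
    simp only [mem_filter]
    refine and_congr_right fun h2 => and_congr_right fun h3 => ?_
    constructor
    · rintro ⟨h4, h5⟩
      refine ⟨?_, h5⟩
      rcases lt_trichotomy x s with h6 | h6 | h6
      · exact h6
      · subst h6
        exact absurd h5 hp
      · exact absurd (hno x h2 h6) (by omega)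
    · rintro ⟨h4, h5⟩
      exact ⟨by omega, h5⟩

/-- **The sum over the phases, in terms of cuts.** `A s` = cost of the phase which starts at `s`;
`X` = the walk at the cuts; `bad` = phases without growth. -/
theorem cuts_le {κ C0 C1 g θ : ℝ} {n : ℕ} {X A : ℕ → ℝ} {cs bad : Finset ℕ} {nx : ℕ → ℕ}
    {pay : ℕ → Prop} [DecidablePred pay]
    (hκ : 0 < κ) (hκ1 : κ ≤ 1) (hθ : 0 < θ) (hg : 0 < g) (hC1 : 0 ≤ C1) (hC0 : 0 ≤ C0)
    (hX : ∀ k, 0 ≤ X k) (hcs : ∀ s ∈ cs, s < n)
    (hnx : ∀ s ∈ cs, s < nx s ∧ (nx s ∈ cs ∨ nx s = n) ∧ ∀ t ∈ cs, s < t → nx s ≤ t)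
    (hall : ∀ s ∈ cs, A s ≤ C0)
    (hnp : ∀ s ∈ cs, s ∉ bad → ¬ pay s → A s ≤ C1 * Real.exp (-(θ * X s)) ∧ X s + g ≤ X (nx s)) :
    ∑ s ∈ cs, A s * Vw κ cs pay (nx s) n ≤
      (C0 + C1 / (1 - Real.exp (-(θ * g)))) / κ +
        bad.card * (C0 + C1 / (1 - Real.exp (-(θ * g)))) := by
  classical
  set Q : ℝ := C1 / (1 - Real.exp (-(θ * g))) with hQ
  have hE1 : Real.exp (-(θ * g)) < 1 := by
    rw [Real.exp_lt_one_iff]
    have := mul_pos hθ hg
    linarith
  have hQ0 : 0 ≤ Q := div_nonneg hC1 (by linarith)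
  have hQeq : Q * (1 - Real.exp (-(θ * g))) = C1 := by
    rw [hQ]
    exact div_mul_cancel₀ _ (by linarith)
  have hR0 : 0 ≤ (C0 + Q) / κ := div_nonneg (by linarith) hκ.le
  have hXe : ∀ k, Q * Real.exp (-(θ * X k)) ≤ Q := fun k => by
    refine mul_le_of_le_one_right hQ0 ?_
    rw [Real.exp_le_one_iff]
    have := mul_nonneg hθ.le (hX k)
    linarith
  have hXe0 : ∀ k, 0 ≤ Q * Real.exp (-(θ * X k)) := fun k => mul_nonneg hQ0 (Real.exp_pos _).le
  have key : ∀ t, (t ∈ cs ∨ t = n) →
      ∑ s ∈ cs.filter (fun s => s < t), A s * Vw κ cs pay (nx s) t + Q * Real.exp (-(θ * X t)) ≤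
        (C0 + Q) / κ + (bad.filter (fun s => s < t)).card * (C0 + Q) := by
    intro t
    induction t using Nat.strong_induction_on with
    | _ t ih =>
      intro ht
      rcases (cs.filter (fun s => s < t)).eq_empty_or_nonempty with hemp | hne
      · rw [hemp, sum_empty, zero_add]
        have h1 : Q ≤ (C0 + Q) / κ := by
          rw [le_div_iff₀ hκ]
          have := mul_le_of_le_one_right hQ0 hκ1
          linarith
        have h2 : 0 ≤ ((bad.filter (fun s => s < t)).card : ℝ) * (C0 + Q) :=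
          mul_nonneg (Nat.cast_nonneg _) (by linarith)
        linarith [hXe t]
      · set s := (cs.filter (fun s => s < t)).max' hne with hs
        have hsm := max'_mem _ hne
        rw [← hs] at hsm
        obtain ⟨hscs, hst⟩ := mem_filter.1 hsm
        have hmax : ∀ x ∈ cs, s < x → t ≤ x := by
          intro x hx hsx
          by_contra hlt
          push Not at hlt
          have := le_max' (cs.filter (fun s => s < t)) x (mem_filter.2 ⟨hx, hlt⟩)
          omega
        obtain ⟨hn1, hn2, hn3⟩ := hnx s hscs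
        have hnst : nx s = t := by
          rcases ht with ht | ht
          · refine le_antisymm (hn3 t ht hst) ?_
            rcases hn2 with h | h
            · exact hmax _ h hn1
            · rw [h]
              exact (hcs t ht).le
          · rcases hn2 with h | h
            · exact absurd (hmax _ h hn1) (by have := hcs _ h; omega)
            · rw [h, ht]
        have ih1 := ih s hst (Or.inl hscs)
        have e0 : cs.filter (fun x => x < t) = insert s (cs.filter (fun x => x < s)) := by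
          ext x
          simp only [mem_filter, mem_insert]
          constructor
          · rintro ⟨h1, h2⟩
            rcases lt_trichotomy x s with h6 | h6 | h6
            · exact Or.inr ⟨h1, h6⟩
            · exact Or.inl h6
            · exact absurd (hmax x h1 h6) (by omega)
          · rintro (h1 | ⟨h1, h2⟩)
            · rw [h1]
              exact ⟨hscs, hst⟩
            · exact ⟨h1, by omega⟩
        rw [e0, sum_insert (by simp), hnst, Vw_self κ cs pay le_rfl, mul_one]
        have e1 : ∑ x ∈ cs.filter (fun x => x < s), A x * Vw κ cs pay (nx x) t =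
            (∑ x ∈ cs.filter (fun x => x < s), A x * Vw κ cs pay (nx x) s) *
              (if pay s then 1 - κ else 1) := by
          rw [sum_mul]
          refine sum_congr rfl fun x hx => ?_
          obtain ⟨hx1, hx2⟩ := mem_filter.1 hx
          rw [Vw_step κ pay hscs hst hmax ((hnx x hx1).2.2 s hscs hx2), mul_assoc]
        rw [e1]
        set T := ∑ x ∈ cs.filter (fun x => x < s), A x * Vw κ cs pay (nx x) s with hT
        have hbc : (bad.filter (fun x => x < s)).card + (if s ∈ bad then 1 else 0) ≤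
            (bad.filter (fun x => x < t)).card := by
          by_cases hb : s ∈ bad
          · rw [if_pos hb, ← card_insert_of_notMem (s := bad.filter (fun x => x < s)) (a := s)
              (by simp)]
            refine card_le_card fun x hx => ?_
            rcases mem_insert.1 hx with h | h
            · rw [h]
              exact mem_filter.2 ⟨hb, hst⟩
            · exact mem_filter.2 ⟨(mem_filter.1 h).1, by have := (mem_filter.1 h).2; omega⟩
          · rw [if_neg hb, add_zero]
            exact card_le_card fun x hx =>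
              mem_filter.2 ⟨(mem_filter.1 hx).1, by have := (mem_filter.1 hx).2; omega⟩
        have hbc' : ((bad.filter (fun x => x < s)).card : ℝ) + (if s ∈ bad then 1 else 0) ≤
            ((bad.filter (fun x => x < t)).card : ℝ) := by
          have := (Nat.cast_le (α := ℝ)).2 hbc
          push_cast at this
          exact this
        have hCQ : 0 ≤ C0 + Q := by linarith
        have hbc2 := mul_le_mul_of_nonneg_right hbc' hCQ
        have hbs0 : (0 : ℝ) ≤ ((bad.filter (fun x => x < s)).card : ℝ) * (C0 + Q) :=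
          mul_nonneg (Nat.cast_nonneg _) hCQ
        by_cases hp : pay s
        · rw [if_pos hp]
          have h2 : T * (1 - κ) ≤
              ((C0 + Q) / κ + (bad.filter (fun x => x < s)).card * (C0 + Q)) * (1 - κ) :=
            mul_le_mul_of_nonneg_right (by linarith [hXe0 s]) (by linarith)
          have h3 : (C0 + Q) / κ * (1 - κ) = (C0 + Q) / κ - (C0 + Q) := by
            field_simp
          have h4 : ((bad.filter (fun x => x < s)).card : ℝ) * (C0 + Q) * (1 - κ) ≤
              (bad.filter (fun x => x < s)).card * (C0 + Q) :=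
            mul_le_of_le_one_right hbs0 (by linarith)
          have h5 : ((bad.filter (fun x => x < s)).card : ℝ) * (C0 + Q) ≤
              (bad.filter (fun x => x < t)).card * (C0 + Q) := by
            refine le_trans ?_ hbc2
            refine mul_le_mul_of_nonneg_right ?_ hCQ
            split_ifs <;> linarith
          have h6 := hall s hscs
          have h7 := hXe t
          rw [add_mul] at h2
          linarith
        · rw [if_neg hp, mul_one]
          by_cases hb : s ∈ bad
          · rw [if_pos hb, add_mul, one_mul] at hbc2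
            have h6 := hall s hscs
            have h7 := hXe t
            have h8 := hXe0 s
            linarith
          · rw [if_neg hb, add_zero] at hbc2
            obtain ⟨h3, h4⟩ := hnp s hscs hb hp
            rw [hnst] at h4
            have h5 : Real.exp (-(θ * X t)) ≤ Real.exp (-(θ * g)) * Real.exp (-(θ * X s)) := by
              rw [← Real.exp_add]
              refine Real.exp_le_exp.2 ?_
              have := mul_le_mul_of_nonneg_left h4 hθ.le
              linarith
            have h6 := mul_le_mul_of_nonneg_left h5 hQ0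
            have h7 : C1 * Real.exp (-(θ * X s)) +
                Q * (Real.exp (-(θ * g)) * Real.exp (-(θ * X s))) =
                Q * Real.exp (-(θ * X s)) := by
              rw [← hQeq]
              ring
            linarith
  have h1 := key n (Or.inr rfl)
  have h2 : cs.filter (fun s => s < n) = cs := filter_true_of_mem hcs
  rw [h2] at h1
  have h3 : ((bad.filter (fun s => s < n)).card : ℝ) * (C0 + Q) ≤ bad.card * (C0 + Q) :=
    mul_le_mul_of_nonneg_right (Nat.cast_le.2 (card_filter_le _ _)) (by linarith)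
  linarith [hXe0 n]

/-- a sum over positions, phase by phase -/
theorem sum_phases {cs : Finset ℕ} {nx : ℕ → ℕ} {n : ℕ} (h0 : 0 ∈ cs) (hcs : ∀ s ∈ cs, s < n)
    (hnx : ∀ s ∈ cs, s < nx s ∧ (nx s ∈ cs ∨ nx s = n) ∧ ∀ t ∈ cs, s < t → nx s ≤ t)
    (M : Finset ℕ) (F : ℕ → ℝ) :
    ∑ j ∈ M.filter (fun j => j < n), F j =
      ∑ s ∈ cs, ∑ j ∈ (Ico s (nx s)).filter (fun j => j ∈ M), F j := by
  classical
  rw [← sum_biUnion]
  · refine sum_congr ?_ fun _ _ => rfl
    ext j
    simp only [mem_filter, mem_biUnion, mem_Ico]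
    constructor
    · rintro ⟨hj, hjn⟩
      have hne : (cs.filter (fun s => s ≤ j)).Nonempty := ⟨0, mem_filter.2 ⟨h0, Nat.zero_le _⟩⟩
      have hm := max'_mem _ hne
      set s := (cs.filter (fun s => s ≤ j)).max' hne with hs
      obtain ⟨h1, h2⟩ := mem_filter.1 hm
      refine ⟨s, h1, ⟨h2, ?_⟩, hj⟩
      by_contra hlt
      push Not at hlt
      obtain ⟨h3, h4, _⟩ := hnx s h1
      rcases h4 with h4 | h4
      · have := le_max' (cs.filter (fun s => s ≤ j)) (nx s) (mem_filter.2 ⟨h4, hlt⟩)
        omega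
      · omega
    · rintro ⟨s, h1, ⟨h2, h3⟩, h4⟩
      refine ⟨h4, ?_⟩
      obtain ⟨_, h5, _⟩ := hnx s h1
      rcases h5 with h5 | h5
      · have := hcs _ h5
        omega
      · omega
  · intro s hs t ht hst
    refine disjoint_left.2 fun j hj hj' => ?_
    simp only [mem_filter, mem_Ico] at hj hj'
    rcases lt_or_gt_of_ne hst with h | h
    · have := (hnx s hs).2.2 t ht h
      omega
    · have := (hnx t ht).2.2 s hs h
      omega

/-- **The sum over the marks of one word.** `cs` = starts of the phases, `nx` = end of the phase,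
`pay` = paying phases; nonpaying phases have few trivial masses in all their initial segments
and a deviation (except the `bad` ones); the marks are separated by deviations (`hR`).
`ew` is an arbitrary position (the gain is used only up to `ew`, for the marks before `ew`). -/
theorem word_sum {c θ h κ a0 b0 g : ℝ} {n : ℕ} {μ W : ℕ → ℝ} {M cs bad : Finset ℕ} {R : ℕ}
    {nx : ℕ → ℕ} {pay : ℕ → Prop} [DecidablePred pay]
    (hc : 0 < c) (hθ : 0 < θ) (hκ : 0 < κ) (hκ1 : κ ≤ 1) (ha0 : 0 ≤ a0) (hb0 : 0 ≤ b0)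
    (hg : 0 < g) (hh : a0 + b0 + g ≤ h)
    (hμ0 : ∀ k, 0 ≤ μ k) (hμc : ∀ k, c * μ k ≤ 1) (hμθ : ∀ k, θ * μ k ≤ 1)
    (hW0 : ∀ k, 0 ≤ W k)
    (hW1 : ∀ k, dv k → W k + h ≤ W (k + 1)) (hW2 : ∀ k, ¬ dv k → W k - μ k ≤ W (k + 1))
    (hR : ∀ b < n, rr dv M 0 b + (if b ∈ M then 1 else 0) ≤ R)
    (hcs : ∀ s ∈ cs, s < n)
    (hnx : ∀ s ∈ cs, s < nx s ∧ (nx s ∈ cs ∨ nx s = n) ∧ ∀ t ∈ cs, s < t → nx s ≤ t)
    (hnp : ∀ s ∈ cs, s ∉ bad → ¬ pay s →
      (∀ b, s ≤ b → b ≤ nx s → tm dv μ s b ≤ a0 * nd dv s b + b0) ∧ 1 ≤ nd dv s (nx s))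
    (ew : ℕ) :
    ∑ s ∈ cs, (∑ j ∈ (Ico s (nx s)).filter (fun j => j ∈ M ∧ j < ew),
        Real.exp (-(θ * W j)) * Us dv c μ j (min (nx s) ew)) * Vw κ cs pay (nx s) n ≤
      (Cp R c θ h + Cp R c θ h * Real.exp (θ * b0) / (1 - Real.exp (-(θ * g)))) / κ +
        bad.card * (Cp R c θ h + Cp R c θ h * Real.exp (θ * b0) / (1 - Real.exp (-(θ * g)))) := by
  classical
  have hh0 : 0 < h := by linarith
  have hCp0 : 0 ≤ Cp R c θ h := by
    unfold Cp
    have h1 := Bp_nonneg (R := R) hθ hh0
    have h2 : (0 : ℝ) ≤ R := Nat.cast_nonneg R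
    positivity
  -- cost of one phase with a lower bound `m` of the walk
  have hph : ∀ s ∈ cs, ∀ m, (∀ k, s ≤ k → k < nx s → m ≤ W k) →
      ∑ j ∈ (Ico s (nx s)).filter (fun j => j ∈ M ∧ j < ew),
        Real.exp (-(θ * W j)) * Us dv c μ j (min (nx s) ew) ≤
          Cp R c θ h * Real.exp (-(θ * m)) := by
    intro s hs m hm
    have hsn := (hnx s hs).1
    rcases le_or_gt ew s with hew | hew
    · have : (Ico s (nx s)).filter (fun j => j ∈ M ∧ j < ew) = ∅ := by
        refine filter_eq_empty_iff.2 fun j hj h1 => ?_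
        have := (mem_Ico.1 hj).1
        omega
      rw [this, sum_empty]
      exact mul_nonneg hCp0 (Real.exp_pos _).le
    · have e1 : (Ico s (nx s)).filter (fun j => j ∈ M ∧ j < ew) =
          (Ico s (min (nx s) ew)).filter (fun j => j ∈ M) := by
        ext j
        simp only [mem_filter, mem_Ico]
        constructor
        · rintro ⟨⟨h1, h2⟩, h3, h4⟩
          exact ⟨⟨h1, lt_min h2 h4⟩, h3⟩
        · rintro ⟨⟨h1, h2⟩, h3⟩
          have := lt_min_iff.1 h2
          exact ⟨⟨h1, this.1⟩, h3, this.2⟩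
      rw [e1]
      have hnn : nx s ≤ n := by
        rcases (hnx s hs).2.1 with h5 | h5
        · exact (hcs _ h5).le
        · exact h5.le
      exact phase_le dv hc hθ hh0 hμ0 hμc hμθ hW1 hW2 hm
        (fun b hb1 hb2 => le_trans (Nat.add_le_add_right (rr_mono dv (Nat.zero_le s)) _)
          (hR b (lt_of_lt_of_le hb2 hnn)))
        (le_min hsn.le hew.le) (min_le_left _ _)
  refine cuts_le (X := W) (C0 := Cp R c θ h) (C1 := Cp R c θ h * Real.exp (θ * b0)) hκ hκ1 hθ hg
    (mul_nonneg hCp0 (Real.exp_pos _).le) hCp0 hW0 hcs hnx ?_ ?_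
  · intro s hs
    have := hph s hs 0 fun k _ _ => hW0 k
    rwa [mul_zero, neg_zero, Real.exp_zero, mul_one] at this
  · intro s hs hb hp
    obtain ⟨h1, h2⟩ := hnp s hs hb hp
    have hsn := (hnx s hs).1
    have hlow : ∀ k, s ≤ k → k ≤ nx s → W s + g * nd dv s k - b0 * (1 - min 1 (nd dv s k : ℝ)) ≤ W k := by
      intro k hk1 hk2
      have h3 := walk_ge dv hW1 hW2 hk1
      have h4 := h1 k hk1 hk2
      have h5 : (0 : ℝ) ≤ nd dv s k := Nat.cast_nonneg _
      rcases Nat.eq_zero_or_pos (nd dv s k) with h6 | h6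
      · rw [h6] at h3 h4 ⊢
        simp only [Nat.cast_zero, mul_zero, add_zero, zero_add] at h3 h4 ⊢
        rw [min_eq_right zero_le_one]
        linarith
      · have h7 : (1 : ℝ) ≤ nd dv s k := by exact_mod_cast h6
        rw [min_eq_left h7]
        have h8 : (a0 + b0 + g) * (nd dv s k : ℝ) ≤ h * nd dv s k :=
          mul_le_mul_of_nonneg_right hh h5
        have h9 : b0 ≤ b0 * nd dv s k := le_mul_of_one_le_right hb0 h7
        linarith
    constructor
    · have h3 := hph s hs (W s - b0) fun k hk1 hk2 => by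
        have h4 := hlow k hk1 hk2.le
        have h5 : (0 : ℝ) ≤ nd dv s k := Nat.cast_nonneg _
        have h6 : 0 ≤ g * (nd dv s k : ℝ) := mul_nonneg hg.le h5
        have h7 : b0 * (1 - min 1 (nd dv s k : ℝ)) ≤ b0 * 1 :=
          mul_le_mul_of_nonneg_left (by linarith [le_min (zero_le_one (α := ℝ)) h5]) hb0
        linarith
      refine h3.trans (le_of_eq ?_)
      rw [mul_assoc, ← Real.exp_add]
      congr 2
      ring
    · have h3 := hlow (nx s) hsn.le le_rfl
      have h4 : (1 : ℝ) ≤ nd dv s (nx s) := by exact_mod_cast h2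
      rw [min_eq_left h4] at h3
      have h5 : g * 1 ≤ g * (nd dv s (nx s) : ℝ) := mul_le_mul_of_nonneg_left h4 hg.le
      linarith

/-- **The exceptional marks**: at most `R'` for each phase, no gain inside the phase. -/
theorem word_exc {θ h κ a0 b0 g : ℝ} {n : ℕ} {μ W : ℕ → ℝ} {cs bad E : Finset ℕ} {R' : ℕ}
    {nx : ℕ → ℕ} {pay : ℕ → Prop} [DecidablePred pay]
    (hθ : 0 < θ) (hκ : 0 < κ) (hκ1 : κ ≤ 1) (hb0 : 0 ≤ b0)
    (hg : 0 < g) (hh : a0 + b0 + g ≤ h)
    (hW0 : ∀ k, 0 ≤ W k)
    (hW1 : ∀ k, dv k → W k + h ≤ W (k + 1)) (hW2 : ∀ k, ¬ dv k → W k - μ k ≤ W (k + 1))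
    (hcs : ∀ s ∈ cs, s < n)
    (hnx : ∀ s ∈ cs, s < nx s ∧ (nx s ∈ cs ∨ nx s = n) ∧ ∀ t ∈ cs, s < t → nx s ≤ t)
    (hnp : ∀ s ∈ cs, s ∉ bad → ¬ pay s →
      (∀ b, s ≤ b → b ≤ nx s → tm dv μ s b ≤ a0 * nd dv s b + b0) ∧ 1 ≤ nd dv s (nx s))
    (hE : ∀ s ∈ cs, ((Ico s (nx s)).filter (fun j => j ∈ E)).card ≤ R') :
    ∑ s ∈ cs, (∑ j ∈ (Ico s (nx s)).filter (fun j => j ∈ E), Real.exp (-(θ * W j))) *
        Vw κ cs pay (nx s) n ≤
      (R' + R' * Real.exp (θ * b0) / (1 - Real.exp (-(θ * g)))) / κ +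
        bad.card * (R' + R' * Real.exp (θ * b0) / (1 - Real.exp (-(θ * g)))) := by
  classical
  have hR0 : (0 : ℝ) ≤ R' := Nat.cast_nonneg R'
  have hph : ∀ s ∈ cs, ∀ m, (∀ k, s ≤ k → k < nx s → m ≤ W k) →
      ∑ j ∈ (Ico s (nx s)).filter (fun j => j ∈ E), Real.exp (-(θ * W j)) ≤
        R' * Real.exp (-(θ * m)) := by
    intro s hs m hm
    calc ∑ j ∈ (Ico s (nx s)).filter (fun j => j ∈ E), Real.exp (-(θ * W j))
        ≤ ∑ j ∈ (Ico s (nx s)).filter (fun j => j ∈ E), Real.exp (-(θ * m)) := by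
          refine sum_le_sum fun j hj => Real.exp_le_exp.2 (neg_le_neg ?_)
          obtain ⟨h1, h2⟩ := mem_Ico.1 (mem_filter.1 hj).1
          exact mul_le_mul_of_nonneg_left (hm j h1 h2) hθ.le
      _ = (((Ico s (nx s)).filter (fun j => j ∈ E)).card : ℝ) * Real.exp (-(θ * m)) := by
          rw [sum_const, nsmul_eq_mul]
      _ ≤ R' * Real.exp (-(θ * m)) :=
          mul_le_mul_of_nonneg_right (Nat.cast_le.2 (hE s hs)) (Real.exp_pos _).le
  refine cuts_le (X := W) (C0 := R') (C1 := R' * Real.exp (θ * b0)) hκ hκ1 hθ hg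
    (mul_nonneg hR0 (Real.exp_pos _).le) hR0 hW0 hcs hnx ?_ ?_
  · intro s hs
    have := hph s hs 0 fun k _ _ => hW0 k
    rwa [mul_zero, neg_zero, Real.exp_zero, mul_one] at this
  · intro s hs hb hp
    obtain ⟨h1, h2⟩ := hnp s hs hb hp
    have hsn := (hnx s hs).1
    have hlow : ∀ k, s ≤ k → k ≤ nx s → W s + g * nd dv s k - b0 * (1 - min 1 (nd dv s k : ℝ)) ≤ W k := by
      intro k hk1 hk2
      have h3 := walk_ge dv hW1 hW2 hk1
      have h4 := h1 k hk1 hk2
      have h5 : (0 : ℝ) ≤ nd dv s k := Nat.cast_nonneg _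
      rcases Nat.eq_zero_or_pos (nd dv s k) with h6 | h6
      · rw [h6] at h3 h4 ⊢
        simp only [Nat.cast_zero, mul_zero, add_zero, zero_add] at h3 h4 ⊢
        rw [min_eq_right zero_le_one]
        linarith
      · have h7 : (1 : ℝ) ≤ nd dv s k := by exact_mod_cast h6
        rw [min_eq_left h7]
        have h8 : (a0 + b0 + g) * (nd dv s k : ℝ) ≤ h * nd dv s k :=
          mul_le_mul_of_nonneg_right hh h5
        have h9 : b0 ≤ b0 * nd dv s k := le_mul_of_one_le_right hb0 h7
        linarith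
    constructor
    · have h3 := hph s hs (W s - b0) fun k hk1 hk2 => by
        have h4 := hlow k hk1 hk2.le
        have h5 : (0 : ℝ) ≤ nd dv s k := Nat.cast_nonneg _
        have h6 : 0 ≤ g * (nd dv s k : ℝ) := mul_nonneg hg.le h5
        have h7 : b0 * (1 - min 1 (nd dv s k : ℝ)) ≤ b0 * 1 :=
          mul_le_mul_of_nonneg_left (by linarith [le_min (zero_le_one (α := ℝ)) h5]) hb0
        linarith
      refine h3.trans (le_of_eq ?_)
      rw [mul_assoc, ← Real.exp_add]
      congr 2
      ring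
    · have h3 := hlow (nx s) hsn.le le_rfl
      have h4 : (1 : ℝ) ≤ nd dv s (nx s) := by exact_mod_cast h2
      rw [min_eq_left h4] at h3
      have h5 : g * 1 ≤ g * (nd dv s (nx s) : ℝ) := mul_le_mul_of_nonneg_left h4 hg.le
      linarith

end word

end Vale.P028.TSW
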